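import Vale.Agent.P275.H93.Ch

/-!
Row A2: the basis elements over one primitive element are indexed by the partitions.
-/

namespace Vale.Agent.P275.H93

open Finset Vale.Agent.P275.H341

variable {I : Type} {H : PSH I} {p : I} {x : ℕ → I}

/-- divisors of divisors -/
theorem dvd_trans' {u v d b a : I} (h1 : H.c u v d ≠ 0) (h2 : H.c d b a ≠ 0) :
    ∃ y, H.c u y a ≠ 0 := by
  have h3 := H.c_assoc u v b a
  have h4 : ∑ y ∈ H.lvl (H.deg u + H.deg v), H.c u v y * H.c y b a ≠ 0 := by
    intro h5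
    have h6 := (Finset.sum_eq_zero_iff.1 h5) d ((H.mem_lvl _ _).2 (H.c_deg _ _ _ h1))
    exact mul_ne_zero h1 h2 h6
  rw [h3] at h4
  obtain ⟨y, _, hy⟩ := Finset.exists_ne_zero_of_sum_ne_zero h4
  exact ⟨y, right_ne_zero_of_mul hy⟩

/-- every element except `1` has a primitive divisor -/
theorem exists_pr {a : I} (ha : a ≠ H.one) : ∃ d, H.Pr d ∧ ∃ b, H.c d b a ≠ 0 := by
  have h1 : ∃ n d, H.deg d = n ∧ 0 < H.deg d ∧ ∃ b, H.c d b a ≠ 0 := by
    refine ⟨_, a, rfl, ?_, H.one, ?_⟩
    · by_contra h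
      exact ha (eq_one' H (by omega))
    · rw [H.c_comm, H.c_one_self]
      exact one_ne_zero
  classical
  obtain ⟨d, hd, hd0, b, hb⟩ := Nat.find_spec h1
  refine ⟨d, ⟨hd0, fun u v huv => ?_⟩, b, hb⟩
  by_contra hcon
  push Not at hcon
  obtain ⟨y, hy⟩ := dvd_trans' huv hb
  have h2 := H.c_deg _ _ _ huv
  have h3 : H.deg v ≠ 0 := fun h => hcon.2 (eq_one' H h)
  have h4 : H.deg u ≠ 0 := fun h => hcon.1 (eq_one' H h)
  exact Nat.find_min h1 (m := H.deg u) (by omega) ⟨u, rfl, by omega, y, hy⟩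

theorem pr_chain (hp : H.Pr p) (hx : H.Chain p x) {i : ℕ} (h : H.Pr (x i)) : i = 1 := by
  by_contra hi
  have h0 : i ≠ 0 := by
    rintro rfl
    have h1 := h.1
    rw [hx.zero, deg_one'] at h1
    exact lt_irrefl _ h1
  obtain ⟨j, rfl⟩ : ∃ j, i = j + 2 := ⟨i - 2, by omega⟩
  have h1 := hx.cself 1 (j + 1)
  have h2 : 1 + (j + 1) = j + 2 := by omega
  rw [h2] at h1
  have h3 := hp.1
  rcases h.2 (x 1) (x (j + 1)) (by rw [h1]; exact one_ne_zero) with h4 | h4
  · have h5 := deg_chain hx 1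
    rw [h4, deg_one'] at h5
    omega
  · have h5 := deg_chain hx (j + 1)
    rw [h4, deg_one'] at h5
    have h6 : 0 < (j + 1) * H.deg p := Nat.mul_pos (Nat.succ_pos j) h3
    omega

/-- the adjoint of a primitive element is a derivation -/
theorem dd_pr_mul {p' : I} (hp' : H.Pr p') (f g : Rg H) :
    dd H p' (f * g) = f * dd H p' g + dd H p' f * g := by
  classical
  have hne : H.one ≠ p' := by
    rintro rfl
    have h1 := hp'.1
    rw [deg_one'] at h1
    exact lt_irrefl _ h1
  rw [dd_mul H p' f g {(H.one, p'), (p', H.one)}, Finset.sum_pair]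
  · rw [H.c_one_self, H.c_comm, H.c_one_self, one_smul, one_smul, dd_one, dd_one]
  · intro h
    exact hne (Prod.mk.injEq _ _ _ _ ▸ h).1
  · intro P hP
    rw [Finset.mem_insert, Finset.mem_singleton]
    rcases hp'.2 _ _ hP with h | h
    · left
      rw [h] at hP
      refine Prod.ext h ?_
      by_contra h2
      exact hP (H.c_one_ne _ _ (Ne.symm h2))
    · right
      rw [h, H.c_comm] at hP
      refine Prod.ext ?_ h
      by_contra h2
      exact hP (H.c_one_ne _ _ (Ne.symm h2))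

/-- another primitive element kills the chain -/
theorem dd_pr_chain (hp : H.Pr p) (hx : H.Chain p x) {p' : I} (hp' : H.Pr p') (hne : p' ≠ p)
    (m : ℤ) : dd H p' (hc H x m) = 0 := by
  by_cases hm : m < 0
  · rw [hc_neg hm, map_zero]
  obtain ⟨n, rfl⟩ : ∃ n : ℕ, m = n := ⟨m.toNat, by omega⟩
  rw [hc_nat]
  refine Rg_ext H fun y => ?_
  rw [co_dd, map_zero]
  have h2 : H.c p' y (x n) = 0 := by
    by_contra h2
    obtain ⟨i, j, hij, hi, hj⟩ := hx.cne _ _ _ h2
    have h3 : i = 1 := pr_chain hp hx (hi ▸ hp')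
    apply hne
    rw [hi, h3, hx.first]
  rw [h2]
  rfl

theorem dd_pr_Sd (hp : H.Pr p) (hx : H.Chain p x) {p' : I} (hp' : H.Pr p') (hne : p' ≠ p)
    {n : ℕ} (a : Fin n → ℤ) : dd H p' (Sd (hc H x) a) = 0 := by
  have h1 : Sd (hc H x) a = ∑ σ : Equiv.Perm (Fin n),
      Equiv.Perm.sign σ • ∏ i, hc H x (a i + σ i) := (adj hp hx).S_eq a
  rw [h1, map_sum]
  refine Finset.sum_eq_zero fun σ _ => ?_
  rw [Units.smul_def, map_zsmul]
  have h2 : dd H p' (∏ i, hc H x (a i + σ i)) = 0 := by
    refine Finset.prod_induction (fun i => hc H x (a i + σ i)) (fun f => dd H p' f = 0) ?_ ?_ ?_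
    · intro f g hf hg
      rw [dd_pr_mul hp', hf, hg, mul_zero, zero_mul, add_zero]
    · have h3 := dd_pr_chain hp hx hp' hne 0
      have h4 : hc H x 0 = 1 := (adj hp hx).h0
      rw [h4] at h3
      exact h3
    · intro i _
      exact dd_pr_chain hp hx hp' hne _
  rw [h2, smul_zero]

/-- the multiplicity in the product of a list -/
theorem co_prod (L : List I) : ∀ a, co H a (L.map (bs H)).prod = H.coef L a := by
  classical
  induction L with
  | nil =>
    intro a
    rw [List.map_nil, List.prod_nil, one_def, co_bs]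
    simp only [PSH.coef]
    by_cases h : a = H.one
    · rw [if_pos h, if_pos h.symm]
      rfl
    · rw [if_neg h, if_neg (Ne.symm h)]
      rfl
  | cons b L ih =>
    intro a
    have hdeg : ∀ y, H.coef L y ≠ 0 → H.deg y = (L.map H.deg).sum := by
      clear ih
      induction L with
      | nil =>
        intro y hy
        simp only [PSH.coef] at hy
        split_ifs at hy with h1
        · rw [h1, deg_one']
          rfl
        · exact absurd rfl hy
      | cons d L ih =>
        intro y hy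
        simp only [PSH.coef] at hy
        obtain ⟨z, hz, h1⟩ := Finset.exists_ne_zero_of_sum_ne_zero hy
        rw [H.c_deg d z y (right_ne_zero_of_mul h1), (H.mem_lvl _ _).1 hz]
        simp
    have h1 : (L.map (bs H)).prod = ∑ y ∈ H.lvl (L.map H.deg).sum, H.coef L y • bs H y := by
      refine Rg_ext H fun z => ?_
      rw [ih, co_sum H z _ (fun y => H.coef L y) (hdeg z)]
    rw [List.map_cons, List.prod_cons, h1, Finset.mul_sum, map_sum]
    simp only [PSH.coef]
    push_cast
    refine Finset.sum_congr rfl fun y _ => ?_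
    rw [mul_smul_comm, map_nsmul, co_mul, nsmul_eq_mul]

/-- **The multiplicities in the determinant of Jacobi and Trudi.** -/
theorem jtc_eq (hp : H.Pr p) (hx : H.Chain p x) {k : ℕ} (lam : Fin k → ℕ) (a : I) :
    H.jtc x lam a = co H a (sd (hc H x) lam) := by
  have h1 : sd (hc H x) lam = ∑ σ : Equiv.Perm (Fin k),
      Equiv.Perm.sign σ • ∏ i, hc H x ((lam i : ℤ) - i + σ i) := (adj hp hx).S_eq _
  rw [h1, map_sum]
  unfold PSH.jtc
  refine Finset.sum_congr rfl fun σ _ => ?_
  rw [Units.smul_def, map_zsmul, smul_eq_mul]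
  congr 1
  split_ifs with h2
  · rw [← co_prod]
    congr 1
    rw [List.map_ofFn, List.prod_ofFn]
    refine Finset.prod_congr rfl fun i _ => ?_
    have h3 : (lam i : ℤ) - i + σ i = ((lam i + σ i - i : ℕ) : ℤ) := by
      have h4 := h2 i
      omega
    rw [h3, hc_nat]
    rfl
  · push Not at h2
    obtain ⟨i, hi⟩ := h2
    rw [Finset.prod_eq_zero (Finset.mem_univ i), map_zero]
    exact hc_neg (by omega)

theorem coef_deg' (L : List I) (y : I) (hy : H.coef L y ≠ 0) : H.deg y = (L.map H.deg).sum := by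
  classical
  induction L generalizing y with
  | nil =>
    simp only [PSH.coef] at hy
    split_ifs at hy with h1
    · rw [h1, deg_one']
      rfl
    · exact absurd rfl hy
  | cons d L ih =>
    simp only [PSH.coef] at hy
    obtain ⟨z, hz, h1⟩ := Finset.exists_ne_zero_of_sum_ne_zero hy
    rw [H.c_deg d z y (right_ne_zero_of_mul h1), (H.mem_lvl _ _).1 hz]
    simp

theorem jtc_deg (hx : H.Chain p x) {k : ℕ} (lam : Fin k → ℕ) (a : I)
    (h : H.jtc x lam a ≠ 0) : H.deg a = (∑ i, lam i) * H.deg p := by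
  unfold PSH.jtc at h
  obtain ⟨w, _, hw⟩ := Finset.exists_ne_zero_of_sum_ne_zero h
  have h1 := right_ne_zero_of_mul hw
  split_ifs at h1 with h2
  · have h3 := coef_deg' _ _ (by exact_mod_cast h1)
    rw [h3, List.map_ofFn, List.sum_ofFn]
    simp only [Function.comp_apply]
    simp_rw [deg_chain hx]
    rw [← Finset.sum_mul]
    congr 1
    have h4 : ∑ i, (lam i + w i - i) + ∑ i : Fin k, (i : ℕ) = ∑ i, lam i + ∑ i : Fin k, (i : ℕ) := by
      rw [← Finset.sum_add_distrib]
      have h5 : ∀ i : Fin k, (lam i + (w i : ℕ) - i) + (i : ℕ) = lam i + (w i : ℕ) := fun i => by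
        have h6 := h2 i
        omega
      rw [Finset.sum_congr rfl fun i _ => h5 i, Finset.sum_add_distrib,
        Equiv.sum_comp w (fun i : Fin k => (i : ℕ))]
    omega
  · exact absurd rfl h1

theorem mem_Pt {k : ℕ} {lam : Fin k → ℕ} : lam ∈ Pt k ↔ ∑ i, lam i = k ∧ Antitone lam := by
  unfold Pt
  rw [Finset.mem_filter, Finset.Nat.mem_antidiagonalTuple]
  rfl

/-- the surjectivity -/
theorem surj (hp : H.Pr p) (hx : H.Chain p x) : ∀ (N : ℕ) (a : I), H.deg a ≤ N → H.Only p a →
    ∃ k, ∃ lam ∈ Pt k, sd (hc H x) lam = bs H a := by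
  intro N
  induction N with
  | zero =>
    intro a ha _
    refine ⟨0, fun i => i.elim0, mem_Pt.2 ⟨by simp, fun i => i.elim0⟩, ?_⟩
    rw [eq_one' H (Nat.le_zero.1 ha)]
    unfold sd Sd
    exact Matrix.det_isEmpty
  | succ N ih =>
    intro a ha hO
    by_cases h1 : H.deg a ≤ N
    · exact ih a h1 hO
    have hne : a ≠ H.one := by
      rintro rfl
      rw [deg_one'] at h1
      omega
    obtain ⟨d, hd, b, hb⟩ := exists_pr hne
    have hdp : d = p := hO d hd ⟨b, hb⟩
    rw [hdp] at hb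
    have h2 := H.c_deg _ _ _ hb
    have h3 := hp.1
    have hOb : H.Only p b := by
      rintro p' hp' ⟨e, he⟩
      rw [H.c_comm] at hb
      obtain ⟨y, hy⟩ := dvd_trans' he hb
      exact hO p' hp' ⟨y, hy⟩
    obtain ⟨k, mu, hmu, hk⟩ := ih b (by omega) hOb
    rw [mem_Pt] at hmu
    have h0 : hc H x 0 = 1 := (adj hp hx).h0
    have hneg : ∀ m < 0, hc H x m = 0 := (adj hp hx).hneg
    have h4 : sd (hc H x) mu ∈ SpA (hc H x) k k := by
      refine Submodule.subset_span ⟨_, ?_, rfl⟩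
      simp only [sub_add_cancel]
      exact_mod_cast hmu.1
    have h5 := SpA_le (hc H x) h0 hneg _ _ (SpA_mul (hc H x) h0 hneg k k 1 h4)
    rw [hk, hc_nat, hx.first] at h5
    obtain ⟨c, hc'⟩ := (Submodule.mem_span_image_finset_iff_exists_fun' ℤ).1 h5
    have h6 : co H a (bs H p * bs H b) ≠ 0 := by
      rw [co_mul]
      exact_mod_cast hb
    rw [← hc', map_sum] at h6
    obtain ⟨lam, hlam, h7⟩ := Finset.exists_ne_zero_of_sum_ne_zero h6
    rw [mem_Par] at hlam
    obtain ⟨y, hy⟩ := sd_eq_bs hp hx _ _ lam hlam.2 rfl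
    have h8 : y = a := by
      by_contra h8
      apply h7
      rw [map_zsmul, hy, co_bs_ne H h8, smul_zero]
    rw [h8] at hy
    refine ⟨k + 1, lam, mem_Pt.2 ⟨?_, hlam.2⟩, hy⟩
    rw [hlam.1]
    omega

/-- **Row A2.** -/
theorem rowA2 : RowA2 := by
  classical
  intro I H p x hp hx
  have hex : ∀ (k : ℕ) (lam : Fin k → ℕ), ∃ y, lam ∈ Pt k → sd (hc H x) lam = bs H y := by
    intro k lam
    by_cases h : lam ∈ Pt k
    · obtain ⟨y, hy⟩ := sd_eq_bs hp hx _ _ lam (mem_Pt.1 h).2 rfl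
      exact ⟨y, fun _ => hy⟩
    · exact ⟨H.one, fun h' => absurd h' h⟩
  choose s hs using hex
  refine ⟨s, ?_, ?_, ?_, ?_, ?_, ?_⟩
  · intro k lam hlam
    have h1 : H.jtc x lam (s k lam) ≠ 0 := by
      rw [jtc_eq hp hx, hs k lam hlam, co_bs_self]
      exact one_ne_zero
    rw [jtc_deg hx lam _ h1, (mem_Pt.1 hlam).1]
  · intro k lam hlam p' hp' ⟨b, hb⟩
    by_contra hne
    have h1 : dd H p' (sd (hc H x) lam) = 0 := dd_pr_Sd hp hx hp' hne _
    rw [hs k lam hlam] at h1
    have h2 := co_dd H p' (s k lam) b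
    rw [h1, map_zero] at h2
    exact hb (by exact_mod_cast h2.symm)
  · intro k lam hlam mu hmu h
    have h1 := (adj hp hx).ortho_s lam mu (mem_Pt.1 hlam).2 (mem_Pt.1 hmu).2
    have h2 : (adj hp hx).s lam = bs H (s k lam) := hs k lam hlam
    have h3 : (adj hp hx).s mu = bs H (s k mu) := hs k mu hmu
    rw [h2, h3, h] at h1
    by_contra h4
    rw [if_neg h4] at h1
    have h5 : Bf H (bs H (s k mu)) (bs H (s k mu)) = 1 := by rw [Bf_bs, co_bs_self]
    exact one_ne_zero (h5.symm.trans h1)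
  · intro a ha
    obtain ⟨k, lam, hlam, h⟩ := surj hp hx _ a le_rfl ha
    refine ⟨k, lam, hlam, ?_⟩
    rw [hs k lam hlam] at h
    by_contra hne
    have h1 := congrArg (co H a) h
    rw [co_bs_self, co_bs_ne H (Ne.symm hne)] at h1
    exact zero_ne_one h1
  · intro k lam hlam
    rw [jtc_eq hp hx, hs k lam hlam, co_bs_self]
  · intro k lam hlam a ha
    rw [jtc_eq hp hx, hs k lam hlam, co_bs_ne H (Ne.symm ha)]

end Vale.Agent.P275.H93
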