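import Vale.Agent.P275.H341.Rows5
import Vale.Agent.P275.H633.C2

/-!
# Row E1: the Frobenius automorphism
-/

set_option linter.style.haveILetI false
set_option linter.unusedSectionVars false

namespace Vale.Agent.P275.H93

open scoped BigOperators MatrixGroups
open Module Matrix Vale.Agent.P275.H85 Vale.Agent.P275.H341

section sl

variable {E : Type} [Field E] [Fintype E] [DecidableEq E]

/-- two families correspond to each other under semilinear bijections -/
def SL (σ : E →+* E) (f' f : CF E) : Prop :=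
  ∀ (V W : Type) [AddCommGroup V] [Module E V] [FiniteDimensional E V]
    [AddCommGroup W] [Module E W] [FiniteDimensional E W] (e : V →ₛₗ[σ] W),
    Function.Bijective e → ∀ (a : V →ₗ[E] V) (b : W →ₗ[E] W), (∀ v, e (a v) = b (e v)) →
      f' V a = f W b

theorem SL_mul {σ : E →+* E} (hσ : Function.Surjective σ) {f' f g' g : CF E} (hf : SL σ f' f)
    (hg : SL σ g' g) : SL σ (mul f' g') (mul f g) := by
  intro V W _ _ _ _ _ _ e he a b h
  haveI : RingHomSurjective σ := ⟨hσ⟩
  unfold mul
  rw [← Equiv.sum_comp (Submodule.orderIsoMapComapOfBijective e he).toEquiv]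
  apply Finset.sum_congr rfl
  intro K _
  change term f' g' a K = term f g b (K.map e)
  by_cases hK : K ≤ K.comap a
  · have hK' : K.map e ≤ (K.map e).comap b := by
      rintro w ⟨v, hv, rfl⟩
      exact ⟨a v, hK hv, h v⟩
    rw [term_of hK, term_of hK']
    congr 1
    · refine hf _ _ (e.submoduleMap K) ⟨?_, LinearMap.submoduleMap_surjective e K⟩ _ _ ?_
      · intro x y hxy
        exact Subtype.ext (he.1 (congrArg Subtype.val hxy))
      · intro v
        exact Subtype.ext (h v)
    · refine hg _ _ (Submodule.mapQ K (K.map e) e (Submodule.le_comap_map _ _)) ⟨?_, ?_⟩ _ _ ?_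
      · rw [injective_iff_map_eq_zero]
        intro x
        induction x using Submodule.Quotient.induction_on with
        | H v =>
          intro hx
          rw [Submodule.mapQ_apply, Submodule.Quotient.mk_eq_zero] at hx
          obtain ⟨v', hv', hvv⟩ := hx
          rw [Submodule.Quotient.mk_eq_zero]
          rw [← he.1 hvv]
          exact hv'
      · intro y
        induction y using Submodule.Quotient.induction_on with
        | H w =>
          obtain ⟨v, rfl⟩ := he.2 w
          exact ⟨Submodule.Quotient.mk v, rfl⟩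
      · intro x
        induction x using Submodule.Quotient.induction_on with
        | H v =>
          rw [Submodule.mapQ_apply, Submodule.mapQ_apply, Submodule.mapQ_apply,
            Submodule.mapQ_apply, h]
  · have hK' : ¬ K.map e ≤ (K.map e).comap b := by
      intro hcon
      apply hK
      intro v hv
      obtain ⟨w, hw, hw2⟩ := hcon ⟨v, hv, rfl⟩
      rw [← h v] at hw2
      rw [Submodule.mem_comap, ← he.1 hw2]
      exact hw
    rw [term_of_not hK, term_of_not hK']

theorem ez_map {n : ℕ} (φ : E ≃+* E) (χ : GL (Fin n) E → ℂ) (M : Matrix (Fin n) (Fin n) E) :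
    ez (fun g => χ (Matrix.GeneralLinearGroup.map (φ : E →+* E) g)) M =
      ez χ (M.map (φ : E →+* E)) := by
  by_cases hM : IsUnit M
  · obtain ⟨u, rfl⟩ := hM
    have h1 : ((u : Matrix (Fin n) (Fin n) E)).map (φ : E →+* E) =
        ((Matrix.GeneralLinearGroup.map (φ : E →+* E) u : GL (Fin n) E) :
          Matrix (Fin n) (Fin n) E) := rfl
    rw [ez_unit, h1, ez_unit]
  · rw [ez_not _ hM, ez_not]
    rintro ⟨u, hu⟩
    apply hM
    refine ⟨Matrix.GeneralLinearGroup.map (φ.symm : E →+* E) u, ?_⟩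
    have h1 : ((Matrix.GeneralLinearGroup.map (φ.symm : E →+* E) u : GL (Fin n) E) :
        Matrix (Fin n) (Fin n) E) = (u : Matrix (Fin n) (Fin n) E).map (φ.symm : E →+* E) := rfl
    rw [h1, hu]
    ext i j
    simp

theorem SL_toCF {n : ℕ} (φ : E ≃+* E) {χ χ' : GL (Fin n) E → ℂ} (hχ : IsClass χ)
    (hχ' : IsClass χ') (h : ∀ g, χ' g = χ (Matrix.GeneralLinearGroup.map (φ : E →+* E) g)) :
    SL (φ : E →+* E) (toCF χ') (toCF χ) := by
  intro V W _ _ _ _ _ _ e he a b hab
  have hr : finrank E V = finrank E W := by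
    have h1 := rank_eq_of_equiv_equiv (fun c : E => φ c)
      (AddEquiv.ofBijective e.toAddMonoidHom he) φ.bijective
      (fun r m => e.map_smulₛₗ r m)
    exact congrArg Cardinal.toNat h1
  by_cases hn : finrank E V = n
  · let B := finBasisOfFinrankEq E V hn
    have hli : LinearIndependent E (e.toAddMonoidHom ∘ B) :=
      B.linearIndependent.map_of_surjective_injective (fun c : E => φ c) e.toAddMonoidHom
        φ.surjective (fun m hm => he.1 (hm.trans (map_zero e).symm))
        (fun r m => e.map_smulₛₗ r m)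
    have hexp : ∀ v, e v = ∑ i, φ (B.repr v i) • e (B i) := by
      intro v
      conv_lhs => rw [← B.sum_repr v]
      rw [map_sum]
      refine Finset.sum_congr rfl fun i _ => ?_
      exact e.map_smulₛₗ _ _
    have hsp : ⊤ ≤ Submodule.span E (Set.range (e.toAddMonoidHom ∘ B)) := by
      intro w _
      obtain ⟨v, rfl⟩ := he.2 w
      rw [hexp v]
      exact Submodule.sum_mem _ fun i _ => Submodule.smul_mem _ _
        (Submodule.subset_span ⟨i, rfl⟩)
    let B' : Basis (Fin n) E W := Basis.mk hli hsp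
    have hB' : ∀ i, B' i = e (B i) := fun i => by
      rw [Basis.mk_apply]
      rfl
    rw [toCF_basis hχ' B, toCF_basis hχ B']
    have h2 : χ' = fun g => χ (Matrix.GeneralLinearGroup.map (φ : E →+* E) g) := funext h
    rw [h2, ez_map]
    congr 1
    ext i j
    rw [Matrix.map_apply, LinearMap.toMatrix_apply, LinearMap.toMatrix_apply, hB', ← hab, hexp,
      map_sum, Finsupp.coe_finsetSum, Finset.sum_apply]
    simp_rw [map_smul, Finsupp.smul_apply, ← hB', Basis.repr_self, smul_eq_mul]
    rw [Finset.sum_eq_single i]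
    · rw [Finsupp.single_eq_same, mul_one]
      rfl
    · intro j _ hj
      rw [Finsupp.single_eq_of_ne hj.symm, mul_zero]
    · intro hcon
      exact absurd (Finset.mem_univ _) hcon
  · rw [toCF_of_ne hn, toCF_of_ne (by rwa [← hr])]

/-- the coordinatewise action -/
def cw (φ : E ≃+* E) (n : ℕ) : (Fin n → E) →ₛₗ[(φ : E →+* E)] (Fin n → E) where
  toFun v i := φ (v i)
  map_add' v w := by
    funext i
    exact map_add φ _ _
  map_smul' c v := by
    funext i
    exact map_mul φ _ _

theorem cw_bij (φ : E ≃+* E) (n : ℕ) : Function.Bijective (cw φ n) := by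
  refine ⟨fun v w h => ?_, fun w => ⟨fun i => φ.symm (w i), ?_⟩⟩
  · funext i
    exact φ.injective (congrFun h i)
  · funext i
    exact φ.apply_symm_apply _

theorem rs_SL {n : ℕ} (φ : E ≃+* E) {f' f : CF E} (h : SL (φ : E →+* E) f' f)
    (g : GL (Fin n) E) : rs n f' g =
      rs n f (Matrix.GeneralLinearGroup.map (φ : E →+* E) g) := by
  unfold rs
  refine h _ _ (cw φ n) (cw_bij φ n) _ _ fun v => ?_
  rw [Matrix.toLin'_apply, Matrix.toLin'_apply]
  funext i
  have h1 := RingHom.map_mulVec (φ : E →+* E) (g : Matrix (Fin n) (Fin n) E) v i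
  exact h1

end sl

section grp

variable {G : Type} [Group G] [Fintype G]

theorem ip_comp (α : G →* G) (hα : Function.Bijective α) (f g : G → ℂ) :
    ip (fun x => f (α x)) (fun x => g (α x)) = ip f g := by
  unfold ip
  congr 1
  refine Fintype.sum_bijective α hα _ _ fun x => ?_
  simp only [map_inv]

/-- composition of an irreducible character with an automorphism -/
theorem irr_comp (α : G →* G) (hα : Function.Bijective α) {χ : G → ℂ} (h : IsIrrChar χ) :
    IsIrrChar (fun g => χ (α g)) := by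
  have hcl : IsClass χ := h.isClass
  obtain ⟨π, rfl⟩ := h
  let ρ' : Representation ℂ G π.V := π.ρ.comp α
  have hρ : (fun g => π.χ (α g)) = ρ'.character := rfl
  rw [hρ]
  apply Pos.irr_of_norm_one
  · refine ⟨fun g h => ρ'.char_conj g h, ?_⟩
    rintro χ ⟨σ, rfl⟩
    exact ⟨_, ip_character_nat σ.ρ ρ'⟩
  · rw [← hρ, ip_comp α hα]
    have h1 := ip_irr (⟨π, rfl⟩ : IsIrrChar π.χ) ⟨π, rfl⟩
    rw [if_pos rfl] at h1
    exact h1

end grp

section frob

variable {E : Type} [Field E] [Fintype E] [DecidableEq E]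

theorem map_bij (φ : E ≃+* E) (n : ℕ) : Function.Bijective
    (Matrix.GeneralLinearGroup.map (n := Fin n) (φ : E →+* E)) := by
  have h1 : ∀ (φ : E ≃+* E) (g : GL (Fin n) E),
      Matrix.GeneralLinearGroup.map (φ.symm : E →+* E)
        (Matrix.GeneralLinearGroup.map (φ : E →+* E) g) = g := by
    intro φ g
    apply Units.ext
    ext i j
    change φ.symm (φ ((g : Matrix (Fin n) (Fin n) E) i j)) = _
    exact φ.symm_apply_apply _
  refine ⟨fun g h hgh => ?_, fun g => ⟨Matrix.GeneralLinearGroup.map (φ.symm : E →+* E) g, ?_⟩⟩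
  · rw [← h1 φ g, ← h1 φ h]
    exact congrArg _ hgh
  · exact h1 φ.symm g

/-- the Frobenius map on the irreducible characters -/
noncomputable def frI (φ : E ≃+* E) (a : IrrF E) : IrrF E :=
  ⟨a.1, ⟨fun g => a.2.1 (Matrix.GeneralLinearGroup.map (φ : E →+* E) g),
    irr_comp _ (map_bij φ a.1) a.2.2⟩⟩

theorem frI_frI (φ φ' : E ≃+* E) (h : ∀ x, φ' (φ x) = x) (a : IrrF E) :
    frI φ (frI φ' a) = a := by
  obtain ⟨n, χ, hχ⟩ := a
  unfold frI
  have h1 : (fun g => χ (Matrix.GeneralLinearGroup.map (φ' : E →+* E)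
      (Matrix.GeneralLinearGroup.map (φ : E →+* E) g))) = χ := by
    funext g
    congr 1
    apply Units.ext
    ext i j
    exact h _
  have h2 : (⟨fun g => χ (Matrix.GeneralLinearGroup.map (φ' : E →+* E)
      (Matrix.GeneralLinearGroup.map (φ : E →+* E) g)),
      irr_comp _ (map_bij φ n) (irr_comp _ (map_bij φ' n) hχ)⟩ :
      {χ : GL (Fin n) E → ℂ // IsIrrChar χ}) = ⟨χ, hχ⟩ := Subtype.ext h1
  exact congrArg (Sigma.mk n) h2

theorem cc_frI (φ : E ≃+* E) (a b x : IrrF E) :
    cc (frI φ a) (frI φ b) (frI φ x) = cc a b x := by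
  unfold cc
  have h1 : SL (φ : E →+* E) (mul (toCF (frI φ a).2.1) (toCF (frI φ b).2.1))
      (mul (toCF a.2.1) (toCF b.2.1)) :=
    SL_mul φ.surjective (SL_toCF φ a.2.2.isClass (frI φ a).2.2.isClass fun g => rfl)
      (SL_toCF φ b.2.2.isClass (frI φ b).2.2.isClass fun g => rfl)
  have h2 : ip (rs x.1 (mul (toCF (frI φ a).2.1) (toCF (frI φ b).2.1))) (frI φ x).2.1 =
      ip (rs x.1 (mul (toCF a.2.1) (toCF b.2.1))) x.2.1 := by
    have h3 : rs x.1 (mul (toCF (frI φ a).2.1) (toCF (frI φ b).2.1)) = fun g =>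
        rs x.1 (mul (toCF a.2.1) (toCF b.2.1))
          (Matrix.GeneralLinearGroup.map (φ : E →+* E) g) := funext fun g => rs_SL φ h1 g
    rw [h3]
    exact ip_comp _ (map_bij φ x.1) _ _
  change (if x.1 = a.1 + b.1 then
    ⌊(ip (rs x.1 (mul (toCF (frI φ a).2.1) (toCF (frI φ b).2.1))) (frI φ x).2.1).re⌋₊ else 0) = _
  rw [h2]

theorem whit_frI (φ : E ≃+* E) (ψ : AddChar E ℂ) (hψ : ψ ≠ 1) (a : IrrF E) :
    whit ψ (frI φ a).2.1 = whit ψ a.2.1 := by
  let ψ' : AddChar E ℂ := ψ.compAddMonoidHom (φ.symm : E →+* E).toAddMonoidHom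
  have hψ' : ψ' ≠ 1 := by
    intro h
    apply hψ
    ext x
    have h1 := DFunLike.congr_fun h (φ x)
    have h2 : ψ' (φ x) = ψ (φ.symm (φ x)) := rfl
    rw [h2, φ.symm_apply_apply] at h1
    exact h1
  rw [H633.whit_indep hψ hψ' a.1 a rfl]
  unfold whit
  congr 1
  refine Fintype.sum_bijective (fun c : Matrix (Fin a.1) (Fin a.1) E => c.map (φ : E →+* E))
    ⟨fun c d hcd => ?_, fun c => ⟨c.map (φ.symm : E →+* E), ?_⟩⟩ _ _ fun c => ?_
  · ext i j
    exact φ.injective (congrFun (congrFun hcd i) j)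
  · ext i j
    exact φ.apply_symm_apply _
  · have h1 : sd (c.map (φ : E →+* E)) = φ (sd c) := by
      unfold sd
      rw [map_sum]
      refine Finset.sum_congr rfl fun i _ => ?_
      rw [map_sum]
      refine Finset.sum_congr rfl fun j _ => ?_
      split_ifs
      · rfl
      · exact (map_zero φ).symm
    have h2 : utri (c.map (φ : E →+* E)) = (utri c).map (φ : E →+* E) := by
      ext i j
      unfold utri
      rw [Matrix.map_apply, Matrix.of_apply, Matrix.of_apply]
      split_ifs
      · exact (map_one φ).symm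
      · rfl
      · exact (map_zero φ).symm
    have h3 : ψ' (-(sd (c.map (φ : E →+* E)))) = ψ (-(sd c)) := by
      change ψ (φ.symm (-(sd (c.map (φ : E →+* E))))) = _
      rw [h1, map_neg, φ.symm_apply_apply]
    rw [h3, h2, ← ez_map φ a.2.1]
    rfl

end frob

/-- **Row E1.** -/
theorem rowE1 : RowE1 := by
  intro F E _ _ _ _ _ φ H hC
  let φ' : E ≃+* E := (φ : E ≃+* E)
  refine ⟨⟨⟨frI φ', frI φ'.symm, fun a => frI_frI _ _ (fun x => φ'.apply_symm_apply x) a,
    fun a => frI_frI _ _ (fun x => φ'.symm_apply_apply x) a⟩, fun a => ?_, fun a b x => ?_⟩,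
    fun a => rfl, fun n χ => ⟨⟨fun g => χ.1 (fr φ n g), ?_⟩, rfl, fun g => rfl⟩,
    fun ψ hψ a => whit_frI φ' ψ hψ a⟩
  · change H.deg (frI φ' a) = H.deg a
    rw [hC.deg, hC.deg]
    rfl
  · change H.c (frI φ' a) (frI φ' b) (frI φ' x) = H.c a b x
    rw [hC.c, hC.c, cc_frI]
  · exact irr_comp _ (map_bij φ' n) χ.2

end Vale.Agent.P275.H93
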