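import Vale.Agent.P275.H93.E4b

/-!
# Row E4, end
-/

set_option linter.style.haveILetI false
set_option linter.unusedSectionVars false

namespace Vale.Agent.P275.H93

open scoped BigOperators MatrixGroups
open Module Matrix Vale.Agent.P275.H85 Vale.Agent.P275.H341

variable {F E : Type} [Field F] [Fintype F] [DecidableEq F] [Field E] [Fintype E] [DecidableEq E]
  [Algebra F E]

/-- the constant terms, explicitly -/
theorem Bs_eq (φ : E ≃ₐ[F] E) {n : ℕ} {z : Fˣ} {b : Eˣ} (hφ : orderOf φ = finrank F E)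
    (hb : φ b = algebraMap F E ((z : F) ^ n) * b) :
    Bs φ n z = Finset.univ.image fun c : Fˣ => b⁻¹ * inc E c := by
  classical
  have hb' : Units.map (φ : E →+* E).toMonoidHom b = inc E z ^ n * b := by
    apply Units.ext
    rw [Units.val_mul, Units.val_pow_eq_pow_val]
    change φ (b : E) = (algebraMap F E (z : F)) ^ n * b
    rw [hb, map_pow]
  ext β
  unfold Bs
  rw [Finset.mem_filter, Finset.mem_image]
  constructor
  · rintro ⟨_, h⟩
    have h1 : Units.map (φ : E →+* E).toMonoidHom (b * β) = b * β := by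
      rw [map_mul, hb']
      calc inc E z ^ n * b * Units.map (φ : E →+* E).toMonoidHom β
          = b * (inc E z ^ n * Units.map (φ : E →+* E).toMonoidHom β) := by
            rw [mul_comm (inc E z ^ n) b, mul_assoc]
        _ = b * β := by rw [h]
    obtain ⟨c, hc⟩ := fixed_gen φ hφ (x := ((b * β : Eˣ) : E)) (congrArg Units.val h1)
    have hc0 : c ≠ 0 := by
      rintro rfl
      rw [map_zero] at hc
      exact (b * β).ne_zero hc.symm
    refine ⟨Units.mk0 c hc0, Finset.mem_univ _, ?_⟩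
    have h2 : inc E (Units.mk0 c hc0) = b * β := Units.ext hc
    rw [h2, inv_mul_cancel_left]
  · rintro ⟨c, _, rfl⟩
    refine ⟨Finset.mem_univ _, ?_⟩
    rw [map_mul, map_inv, hb', map_inc, mul_inv, ← mul_assoc, ← mul_assoc, mul_inv_cancel, one_mul]

theorem sum_Bs (φ : E ≃ₐ[F] E) {n : ℕ} (hn : 1 ≤ n) {z : Fˣ} {b : Eˣ} {κ : Fˣ →* ℂˣ}
    (hφ : orderOf φ = finrank F E) (hκ : orderOf κ = finrank F E)
    (hb : φ b = algebraMap F E ((z : F) ^ n) * b) :
    ∑ β ∈ Bs φ n z, ((κ (nrm F (Matrix.GeneralLinearGroup.det (H510.cmU hn β))) : ℂˣ) : ℂ) =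
      ((Fintype.card F : ℂ) - 1) * ((κ (nrm F b) : ℂˣ) : ℂ)⁻¹ := by
  classical
  have h1 : ∀ β ∈ Bs φ n z,
      ((κ (nrm F (Matrix.GeneralLinearGroup.det (H510.cmU hn β))) : ℂˣ) : ℂ) =
        ((κ (nrm F b) : ℂˣ) : ℂ)⁻¹ := by
    intro β hβ
    rw [Bs_eq φ hφ hb, Finset.mem_image] at hβ
    obtain ⟨c, _, rfl⟩ := hβ
    rw [κ_det hn hκ, map_mul, map_mul, κ_inc hκ, mul_one, map_inv, map_inv, Units.val_inv_eq_inv_val]
  rw [Finset.sum_congr rfl h1, Finset.sum_const, Bs_eq φ hφ hb, Finset.card_image_of_injective,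
    Finset.card_univ, Fintype.card_units, nsmul_eq_mul, Nat.cast_sub Fintype.card_pos, Nat.cast_one]
  intro c d hcd
  exact inc_inj (mul_left_cancel hcd)

/-- the count -/
theorem count_all_tw (φ : E ≃ₐ[F] E) {n : ℕ} (hn : 1 ≤ n) {z : Fˣ} {b : Eˣ} {κ : Fˣ →* ℂˣ}
    (hφ : orderOf φ = finrank F E) (hκ : orderOf κ = finrank F E)
    (hz : orderOf z = n * finrank F E) (hb : φ b = algebraMap F E ((z : F) ^ n) * b) :
    (∑ x : GL (Fin n) E, ∑ y : GL (Fin n) E,
      if x * fr φ n y * x⁻¹ * y⁻¹ = (scal n (inc E z))⁻¹ then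
        ((κ (nrm F (Matrix.GeneralLinearGroup.det y)) : ℂˣ) : ℂ) else 0)
      = (Fintype.card (GL (Fin n) E) : ℂ) *
        (((Fintype.card F : ℂ) - 1) * ((κ (nrm F b) : ℂˣ) : ℂ)⁻¹) := by
  classical
  rw [Finset.sum_comm]
  have h1 : ∀ y : GL (Fin n) E, (∑ x : GL (Fin n) E,
      if x * fr φ n y * x⁻¹ * y⁻¹ = (scal n (inc E z))⁻¹ then
        ((κ (nrm F (Matrix.GeneralLinearGroup.det y)) : ℂˣ) : ℂ) else 0) =
      ∑ β ∈ Bs φ n z, ∑ P : GL (Fin n) E, if P * H510.cmU hn β * P⁻¹ = y then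
        ((κ (nrm F (Matrix.GeneralLinearGroup.det (H510.cmU hn β))) : ℂˣ) : ℂ) else 0 := by
    intro y
    have h2 := congrArg (fun t => ((κ (nrm F (Matrix.GeneralLinearGroup.det y)) : ℂˣ) : ℂ) * t)
      (count_tw φ hn hφ hz y)
    simp only [Finset.mul_sum, mul_ite, mul_one, mul_zero] at h2
    rw [h2]
    refine Finset.sum_congr rfl fun β _ => Finset.sum_congr rfl fun P _ => ?_
    have h4 : Matrix.GeneralLinearGroup.det (P * H510.cmU hn β * P⁻¹) =
        Matrix.GeneralLinearGroup.det (H510.cmU hn β) := by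
      rw [map_mul, map_mul, map_inv, mul_inv_cancel_comm]
    split_ifs with h3
    · rw [← h3, h4]
    · rfl
  rw [Finset.sum_congr rfl fun y _ => h1 y, Finset.sum_comm, ← sum_Bs φ hn hφ hκ hb, Finset.mul_sum]
  refine Finset.sum_congr rfl fun β _ => ?_
  rw [Finset.sum_comm]
  simp

open scoped Classical in
/-- the twisted Frobenius formula for one handle -/
theorem E8_one (hE8 : RowE8) {G : Type} [Group G] [Fintype G] (α : G ≃* G) (η : G →* ℂˣ) (Z : G)
    (hη : ∀ g, η (α g) = η g) (hc : ∀ g, Z * g = g * Z) (hz : α Z = Z) :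
    (∑ x : G, ∑ y : G, if x * α y * x⁻¹ * y⁻¹ = Z then ((η y : ℂˣ) : ℂ) else 0) =
      (Fintype.card G : ℂ) * ∑ χ ∈ (irrSet G).filter
        (fun χ => ∀ g, χ (α g) = ((η g : ℂˣ) : ℂ) * χ g), χ Z / χ 1 := by
  have h1 := hE8 G α η Z 1 0 one_pos hη hc hz
  have h2 : (∑ a : Fin 1 → G, ∑ b : Fin 1 → G, ∑ A : Fin 0 → Fin 1 → G, ∑ B : Fin 0 → Fin 1 → G,
      if a * shf α b * a⁻¹ * b⁻¹ * (List.ofFn fun i => A i * B i * (A i)⁻¹ * (B i)⁻¹).prod
        = fun _ => Z then ∏ i, ((η (b i) : ℂˣ) : ℂ) else 0) =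
      ∑ x : G, ∑ y : G, if x * α y * x⁻¹ * y⁻¹ = Z then ((η y : ℂˣ) : ℂ) else 0 := by
    rw [← Equiv.sum_comp (Equiv.funUnique (Fin 1) G).symm]
    refine Finset.sum_congr rfl fun x _ => ?_
    rw [← Equiv.sum_comp (Equiv.funUnique (Fin 1) G).symm]
    refine Finset.sum_congr rfl fun y _ => ?_
    rw [Fintype.sum_unique, Fintype.sum_unique, List.ofFn_zero, List.prod_nil, mul_one,
      Fin.prod_univ_one]
    have h3 : ((Equiv.funUnique (Fin 1) G).symm x * shf α ((Equiv.funUnique (Fin 1) G).symm y) *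
        ((Equiv.funUnique (Fin 1) G).symm x)⁻¹ * ((Equiv.funUnique (Fin 1) G).symm y)⁻¹ =
          fun _ => Z) ↔ x * α y * x⁻¹ * y⁻¹ = Z := by
      constructor
      · intro h
        exact congrFun h 0
      · intro h
        funext i
        have hi : i = 0 := Subsingleton.elim _ _
        rw [hi]
        exact h
    by_cases h4 : x * α y * x⁻¹ * y⁻¹ = Z
    · rw [if_pos (h3.2 h4), if_pos h4]
      rfl
    · rw [if_neg (fun h => h4 (h3.1 h)), if_neg h4]
  rw [h2] at h1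
  rw [h1, pow_one]
  simp only [Nat.sub_self, mul_zero, Nat.zero_div, pow_zero, one_mul, pow_one, zero_mul]

/-- **Row E4** from the twisted Frobenius formula. -/
theorem rowE4 (hE8 : RowE8) : RowE4 := by
  intro F E _ _ _ _ _ _ _ φ κ n z b hn hφ hκ _ hz hb
  let α : GL (Fin n) E ≃* GL (Fin n) E :=
    MulEquiv.ofBijective (fr φ n) (map_bij (φ : E ≃+* E) n)
  let η : GL (Fin n) E →* ℂˣ := κ.comp ((nrm F).comp Matrix.GeneralLinearGroup.det)
  have hα : ∀ g, α g = fr φ n g := fun g => rfl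
  have hη : ∀ g, η (α g) = η g := by
    intro g
    change κ (nrm F (Matrix.GeneralLinearGroup.det (fr φ n g))) =
      κ (nrm F (Matrix.GeneralLinearGroup.det g))
    have h1 : Matrix.GeneralLinearGroup.det (fr φ n g) =
        Units.map (φ : E →+* E).toMonoidHom (Matrix.GeneralLinearGroup.det g) := by
      apply Units.ext
      change ((g : Matrix (Fin n) (Fin n) E).map (φ : E →+* E)).det =
        φ ((g : Matrix (Fin n) (Fin n) E).det)
      exact (RingHom.map_det (φ : E →+* E) (g : Matrix (Fin n) (Fin n) E)).symm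
    rw [h1, nrm_map]
  have hc : ∀ g : GL (Fin n) E, (scal n (inc E z))⁻¹ * g = g * (scal n (inc E z))⁻¹ := by
    intro g
    exact ((show Commute (scal n (inc E z)) g from D1.scal_comm _ _).inv_left).eq
  have hz' : α (scal n (inc E z))⁻¹ = (scal n (inc E z))⁻¹ := by
    rw [hα, map_inv, fr_scal, map_inc]
  have h1 := E8_one hE8 α η (scal n (inc E z))⁻¹ hη hc hz'
  have hG : (Fintype.card (GL (Fin n) E) : ℂ) ≠ 0 := by exact_mod_cast Fintype.card_ne_zero
  refine Eq.trans ?_ (mul_left_cancel₀ hG (h1.symm.trans (Eq.trans ?_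
    (count_all_tw φ hn hφ hκ hz hb))))
  · unfold tstb
    refine Finset.sum_congr ?_ fun χ _ => rfl
    ext χ
    rw [Finset.mem_filter, Finset.mem_filter]
    exact Iff.rfl
  · refine Finset.sum_congr rfl fun x _ => Finset.sum_congr rfl fun y _ => ?_
    by_cases h4 : x * fr φ n y * x⁻¹ * y⁻¹ = (scal n (inc E z))⁻¹
    · rw [if_pos h4, if_pos (show x * α y * x⁻¹ * y⁻¹ = (scal n (inc E z))⁻¹ from h4)]
      rfl
    · rw [if_neg h4, if_neg (show ¬ x * α y * x⁻¹ * y⁻¹ = (scal n (inc E z))⁻¹ from h4)]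

end Vale.Agent.P275.H93
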