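import Vale.Agent.P275.H93.E1
import Vale.Agent.P275.H510.C6

/-!
# Row E4: the sum over all fixed characters, from the twisted Frobenius formula
-/

set_option linter.style.haveILetI false
set_option linter.unusedSectionVars false

namespace Vale.Agent.P275.H93

open scoped BigOperators MatrixGroups
open Module Matrix Vale.Agent.P275.H85 Vale.Agent.P275.H341

theorem cm_stable' {E : Type} [Field E] {n : ℕ} {z b b' : E} (h : z ^ n * b' = b) :
    Matrix.diagonal (fun i : Fin n => z ^ (i : ℕ)) * H510.cm n b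
      = z • (H510.cm n b' * Matrix.diagonal (fun i : Fin n => z ^ (i : ℕ))) := by
  ext i j
  rw [Matrix.diagonal_mul, Matrix.smul_apply, Matrix.mul_diagonal, smul_eq_mul, H510.cm_apply,
    H510.cm_apply]
  split_ifs with h1 h2
  · rw [h1]
    ring
  · rw [h2.2, pow_zero, one_mul, ← h]
    have h3 : z ^ n = z * z ^ (j : ℕ) := by
      rw [← pow_succ']
      congr 1
      exact h2.1.symm
    rw [h3]
    ring
  · ring

theorem det_cm {E : Type} [Field E] {n : ℕ} (hn : 1 ≤ n) (b : E) :
    (H510.cm n b).det ^ 2 = b ^ 2 := by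
  have h1 : (H510.cm n b)ᵀ * H510.cm n b =
      Matrix.diagonal fun i : Fin n => if (i : ℕ) + 1 < n then 1 else b ^ 2 := by
    ext i j
    rw [H510.mul_cm, Matrix.diagonal_apply]
    have hi := i.2
    have hj := j.2
    split_ifs with h h1 h2 h3 h4
    · rw [Matrix.transpose_apply, H510.cm_apply, if_pos (by rw [h1])]
    · exact absurd h (by rw [← h1]; exact h2)
    · rw [Matrix.transpose_apply, H510.cm_apply, if_neg, if_neg]
      · simp
      · intro h4
        apply h1
        apply Fin.ext
        simp only at h4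
        omega
    · rw [Matrix.transpose_apply, H510.cm_apply, if_neg (by simp), if_pos ⟨by omega, rfl⟩]
      rw [h3] at h4
      exact absurd h4 h
    · rw [Matrix.transpose_apply, H510.cm_apply, if_neg (by simp), if_pos ⟨by omega, rfl⟩]
      ring
    · rw [Matrix.transpose_apply, H510.cm_apply, if_neg (by simp), if_neg, zero_mul]
      rintro ⟨h4, _⟩
      apply h3
      apply Fin.ext
      omega
  have h2 := congrArg Matrix.det h1
  rw [Matrix.det_mul, Matrix.det_transpose, Matrix.det_diagonal] at h2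
  rw [sq, h2, Finset.prod_eq_single (⟨n - 1, by omega⟩ : Fin n)]
  · rw [if_neg]
    simp only
    omega
  · intro i _ hi
    rw [if_pos]
    have h3 := i.2
    have h4 : (i : ℕ) ≠ n - 1 := fun h4 => hi (Fin.ext h4)
    omega
  · intro h3
    exact absurd (Finset.mem_univ _) h3

section

variable {F E : Type} [Field F] [Fintype F] [DecidableEq F] [Field E] [Fintype E] [DecidableEq E]
  [Algebra F E]

/-- the fixed elements of a generator -/
theorem fixed_gen (φ : E ≃ₐ[F] E) (hφ : orderOf φ = finrank F E) {x : E} (hx : φ x = x) :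
    ∃ c : F, algebraMap F E c = x := by
  haveI : FiniteDimensional F E := Module.Finite.of_finite
  let K := IntermediateField.fixedField (Subgroup.zpowers φ)
  have h1 : finrank K E = Nat.card (Subgroup.zpowers φ) := by
    exact IntermediateField.finrank_fixedField_eq_card (Subgroup.zpowers φ)
  rw [Nat.card_zpowers, hφ] at h1
  have h2 : finrank F K * finrank K E = finrank F E := finrank_mul_finrank F K E
  have h3 : 0 < finrank F E := finrank_pos
  rw [h1] at h2
  have h4 : finrank F K = 1 := Nat.eq_of_mul_eq_mul_right h3 (by rw [h2, one_mul])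
  have h5 : K = ⊥ := IntermediateField.finrank_eq_one_iff.1 h4
  have h6 : x ∈ K := by
    rw [IntermediateField.mem_fixedField_iff]
    intro ψ hψ
    obtain ⟨k, rfl⟩ := Subgroup.mem_zpowers_iff.1 hψ
    have h7 : φ ∈ MulAction.stabilizer (E ≃ₐ[F] E) x := hx
    exact (MulAction.stabilizer (E ≃ₐ[F] E) x).zpow_mem h7 k
  rw [h5] at h6
  exact IntermediateField.mem_bot.1 h6

theorem nrm_inc (c : Fˣ) : nrm F (inc E c) = c ^ finrank F E := by
  apply Units.ext
  change Algebra.norm F (algebraMap F E (c : F)) = ((c ^ finrank F E : Fˣ) : F)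
  rw [Algebra.norm_algebraMap, Units.val_pow_eq_pow_val]

theorem κ_inc {κ : Fˣ →* ℂˣ} (hκ : orderOf κ = finrank F E) (c : Fˣ) :
    κ (nrm F (inc E c)) = 1 := by
  rw [nrm_inc, map_pow, ← MonoidHom.pow_apply, ← hκ, pow_orderOf_eq_one, MonoidHom.one_apply]

theorem κ_det {n : ℕ} (hn : 1 ≤ n) {κ : Fˣ →* ℂˣ} (hκ : orderOf κ = finrank F E) (β : Eˣ) :
    κ (nrm F (Matrix.GeneralLinearGroup.det (H510.cmU hn β))) = κ (nrm F β) := by
  have h1 := det_cm hn (β : E)
  have h2 : ((Matrix.GeneralLinearGroup.det (H510.cmU hn β) : Eˣ) : E) =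
      (H510.cm n (β : E)).det := rfl
  rcases sq_eq_sq_iff_eq_or_eq_neg.1 h1 with h3 | h3
  · have h4 : Matrix.GeneralLinearGroup.det (H510.cmU hn β) = β := Units.ext (h2.trans h3)
    rw [h4]
  · have h4 : Matrix.GeneralLinearGroup.det (H510.cmU hn β) = inc E (-1 : Fˣ) * β := by
      apply Units.ext
      rw [h2, h3, Units.val_mul]
      change _ = algebraMap F E ((-1 : Fˣ) : F) * _
      rw [Units.val_neg, Units.val_one, map_neg, map_one, neg_one_mul]
    rw [h4, map_mul, map_mul, κ_inc hκ, one_mul]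

theorem nrm_map (φ : E ≃ₐ[F] E) (x : Eˣ) :
    nrm F (Units.map (φ : E →+* E).toMonoidHom x) = nrm F x := by
  apply Units.ext
  change Algebra.norm F (φ (x : E)) = Algebra.norm F (x : E)
  exact Algebra.norm_eq_of_algEquiv φ (x : E)

theorem fr_scal (φ : E ≃ₐ[F] E) (n : ℕ) (x : Eˣ) :
    fr φ n (scal n x) = scal n (Units.map (φ : E →+* E).toMonoidHom x) := by
  apply Units.ext
  rw [D1.scal_val]
  change ((scal n x : GL (Fin n) E) : Matrix (Fin n) (Fin n) E).map (φ : E →+* E) = _
  rw [D1.scal_val]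
  ext i j
  rw [Matrix.map_apply, Matrix.smul_apply, Matrix.smul_apply, Matrix.one_apply]
  split_ifs
  · simp
  · simp

theorem fr_cmU (φ : E ≃ₐ[F] E) {n : ℕ} (hn : 1 ≤ n) (x : Eˣ) :
    fr φ n (H510.cmU hn x) = H510.cmU hn (Units.map (φ : E →+* E).toMonoidHom x) := by
  apply Units.ext
  change (H510.cm n (x : E)).map (φ : E →+* E) = H510.cm n (φ (x : E))
  ext i j
  rw [Matrix.map_apply, H510.cm_apply, H510.cm_apply]
  split_ifs
  · simp
  · rfl
  · simp

theorem fr_iter (φ : E ≃ₐ[F] E) (n k : ℕ) (g : GL (Fin n) E) :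
    (fr φ n)^[k] g = fr (φ ^ k) n g := by
  induction k with
  | zero =>
    rw [pow_zero]
    apply Units.ext
    ext i j
    rfl
  | succ k ih =>
    rw [Function.iterate_succ_apply', ih]
    apply Units.ext
    ext i j
    change φ ((φ ^ k) _) = (φ ^ (k + 1)) _
    rw [pow_succ']
    rfl

theorem map_inc (φ : E ≃ₐ[F] E) (c : Fˣ) :
    Units.map (φ : E →+* E).toMonoidHom (inc E c) = inc E c := by
  apply Units.ext
  exact φ.commutes (c : F)

end

end Vale.Agent.P275.H93
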