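import Vale.Agent.P275.H93.A2

/-!
Row A3: every basis element is the product, in a unique way, of an element over a primitive element
`p` and of an element away from `p`.
-/

namespace Vale.Agent.P275.H93

open Finset Vale.Agent.P275.H341

variable {I : Type} {H : PSH I} {p : I}

theorem only_of_dvd {u v a : I} (h : H.c u v a ≠ 0) (ha : H.Only p a) : H.Only p u := by
  rintro p' hp' ⟨e, he⟩
  obtain ⟨y, hy⟩ := dvd_trans' he h
  exact ha p' hp' ⟨y, hy⟩

theorem away_of_dvd {u v b : I} (h : H.c u v b ≠ 0) (hb : H.Away p b) : H.Away p u := by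
  intro e
  by_contra he
  obtain ⟨y, hy⟩ := dvd_trans' he h
  exact hy (hb y)

theorem eq_one_of {u : I} (h1 : H.Only p u) (h2 : H.Away p u) : u = H.one := by
  by_contra h
  obtain ⟨d, hd, b, hb⟩ := exists_pr h
  have h3 := h1 d hd ⟨b, hb⟩
  rw [h3] at hb
  exact hb (h2 b)

theorem c_one_ne_zero {a x : I} (h : H.c a H.one x ≠ 0) : x = a := by
  rw [H.c_comm] at h
  by_contra h1
  exact h (H.c_one_ne a x h1)

/-- all pairs of elements of small degree -/
noncomputable def T0 (H : PSH I) (n : ℕ) : Finset (I × I) := by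
  classical
  exact ((range (n + 1)).biUnion H.lvl) ×ˢ ((range (n + 1)).biUnion H.lvl)

theorem mem_T0 {a : I} (P : I × I) (h : H.c P.1 P.2 a ≠ 0) : P ∈ T0 H (H.deg a) := by
  classical
  have h1 := H.c_deg _ _ _ h
  unfold T0
  rw [Finset.mem_product, Finset.mem_biUnion, Finset.mem_biUnion]
  exact ⟨⟨_, Finset.mem_range.2 (by omega), (H.mem_lvl _ _).2 rfl⟩,
    ⟨_, Finset.mem_range.2 (by omega), (H.mem_lvl _ _).2 rfl⟩⟩

theorem dd_ne_zero {a b : I} (h : dd H a (bs H b) ≠ 0) : ∃ y, H.c a y b ≠ 0 := by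
  by_contra hcon
  push Not at hcon
  apply h
  refine Rg_ext H fun y => ?_
  rw [co_dd, hcon y, map_zero]
  rfl

/-- the adjoint of an element over `p` at a product of elements over `p` and away from `p` -/
theorem dd_only {a a' b' : I} (ha : H.Only p a) (hb : H.Away p b') :
    dd H a (bs H a' * bs H b') = dd H a (bs H a') * bs H b' := by
  classical
  rw [dd_mul H a _ _ (insert (a, H.one) (T0 H (H.deg a)))
    (fun P hP => Finset.mem_insert_of_mem (mem_T0 P hP)), Finset.sum_eq_single (a, H.one)]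
  · rw [H.c_comm, H.c_one_self, one_smul, dd_one]
  · intro P _ hne
    by_contra h1
    have h2 : H.c P.1 P.2 a ≠ 0 := by
      intro h2
      apply h1
      rw [h2, zero_smul]
    have h3 : dd H P.2 (bs H b') ≠ 0 := by
      intro h3
      apply h1
      rw [h3, mul_zero, smul_zero]
    obtain ⟨y, hy⟩ := dd_ne_zero h3
    have h4 : P.2 = H.one := by
      refine eq_one_of (p := p) ?_ (away_of_dvd hy hb)
      rw [H.c_comm] at h2
      exact only_of_dvd h2 ha
    rw [h4] at h2
    exact hne (Prod.ext (c_one_ne_zero h2).symm h4)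
  · intro h
    exact absurd (Finset.mem_insert_self _ _) h

theorem dd_self (a : I) : dd H a (bs H a) = 1 := by
  rw [one_def]
  refine Rg_ext H fun y => ?_
  rw [co_dd]
  by_cases h : y = H.one
  · rw [h, H.c_comm, H.c_one_self, co_bs_self]
    rfl
  · rw [co_bs_ne H (Ne.symm h)]
    have h1 : H.c a y a = 0 := by
      by_contra h1
      have h2 := H.c_deg _ _ _ h1
      exact h (eq_one' H (by omega))
    rw [h1]
    rfl

theorem prod_ex {a b : I} (ha : H.Only p a) (hb : H.Away p b) : ∃ z, H.IsProd a b z := by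
  have h1 : Bf H (bs H a * bs H b) (bs H a * bs H b) = 1 := by
    rw [Bf_mul, dd_only ha hb, dd_self, one_mul, Bf_bs, co_bs_self]
  obtain ⟨z, hz | hz⟩ := pm_bs _ h1
  · refine ⟨z, ?_, fun x hx => ?_⟩
    · have h2 := co_mul H a b z
      rw [hz, co_bs_self] at h2
      exact_mod_cast h2.symm
    · have h2 := co_mul H a b x
      rw [hz, co_bs_ne H (Ne.symm hx)] at h2
      exact_mod_cast h2.symm
  · exfalso
    have h2 := co_mul H a b z
    rw [hz, map_neg, co_bs_self] at h2
    omega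

/-- a constituent of the product with `p` of an element over `p` is over `p` -/
theorem only_mul (hp : H.Pr p) {a a' : I} (ha : H.Only p a) (h : H.c a p a' ≠ 0) :
    H.Only p a' := by
  rintro p' hp' ⟨e, he⟩
  by_contra hne
  have h1 : dd H p' (bs H a * bs H p) = 0 := by
    rw [dd_pr_mul hp']
    have h2 : dd H p' (bs H a) = 0 := by
      by_contra h2
      exact hne (ha p' hp' (dd_ne_zero h2))
    have h3 : dd H p' (bs H p) = 0 := by
      by_contra h3
      obtain ⟨y, hy⟩ := dd_ne_zero h3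
      rcases hp.2 _ _ hy with h4 | h4
      · have h5 := hp'.1
        rw [h4, deg_one'] at h5
        exact lt_irrefl _ h5
      · rw [h4] at hy
        exact hne (c_one_ne_zero hy).symm
    rw [h2, h3, mul_zero, zero_mul, add_zero]
  have h2 : co H e (dd H p' (bs H a * bs H p)) = 0 := by rw [h1, map_zero]
  rw [bs_mul] at h2
  unfold bm at h2
  rw [map_sum, map_sum] at h2
  simp_rw [map_nsmul, co_dd] at h2
  rw [Finset.sum_eq_zero_iff_of_nonneg (fun y _ => by positivity)] at h2
  have h3 := h2 a' ((H.mem_lvl _ _).2 (H.c_deg _ _ _ h))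
  rw [nsmul_eq_mul] at h3
  have h4 : H.c a p a' * H.c p' e a' = 0 := by exact_mod_cast h3
  exact mul_ne_zero h he h4

theorem only_one : H.Only p H.one := by
  rintro p' hp' ⟨e, he⟩
  have h1 := H.c_deg _ _ _ he
  have h2 := hp'.1
  rw [deg_one'] at h1
  omega

theorem fact_ex (hp : H.Pr p) (z : I) :
    ∃ ab : I × I, H.Only p ab.1 ∧ H.Away p ab.2 ∧ H.IsProd ab.1 ab.2 z := by
  classical
  -- the divisor over `p` of the largest degree
  have h1 : ∃ n, ∃ a b, n + H.deg a = H.deg z ∧ H.Only p a ∧ H.c a b z ≠ 0 := by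
    refine ⟨H.deg z, H.one, z, by rw [deg_one', add_zero], only_one, ?_⟩
    rw [H.c_one_self]
    exact one_ne_zero
  obtain ⟨a, b, hn, ha, hab⟩ := Nat.find_spec h1
  have hb : H.Away p b := by
    intro e
    by_contra he
    have h2 := H.c_deg _ _ _ hab
    rw [H.c_comm] at hab
    -- `z` divides `b a`, `b` divides `p e`
    have h3 := H.c_assoc a p e z
    have h4 : ∑ y ∈ H.lvl (H.deg p + H.deg e), H.c p e y * H.c a y z ≠ 0 := by
      intro h5
      have h6 := (Finset.sum_eq_zero_iff.1 h5) b ((H.mem_lvl _ _).2 (H.c_deg _ _ _ he))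
      rw [H.c_comm a b] at h6
      exact mul_ne_zero he hab h6
    rw [← h3] at h4
    obtain ⟨a', _, ha'⟩ := Finset.exists_ne_zero_of_sum_ne_zero h4
    have h5 := left_ne_zero_of_mul ha'
    have h6 := right_ne_zero_of_mul ha'
    have h7 := H.c_deg _ _ _ h5
    have h8 := H.c_deg _ _ _ h6
    have h9 := hp.1
    refine Nat.find_min h1 (m := Nat.find h1 - H.deg p) (by omega) ⟨a', e, ?_, only_mul hp ha h5, h6⟩
    omega
  obtain ⟨z', hz'⟩ := prod_ex ha hb
  have h2 : z = z' := by
    by_contra h2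
    exact hab (hz'.2 z h2)
  exact ⟨(a, b), ha, hb, h2 ▸ hz'⟩

theorem fact_unique {a b a' b' z : I} (ha : H.Only p a) (hb : H.Away p b) (hz : H.IsProd a b z)
    (ha' : H.Only p a') (hb' : H.Away p b') (hz' : H.IsProd a' b' z) : a = a' ∧ b = b' := by
  have hpr : ∀ {a b : I}, H.IsProd a b z → bs H a * bs H b = bs H z := by
    intro a b hz
    refine Rg_ext H fun y => ?_
    rw [co_mul]
    by_cases h : y = z
    · rw [h, hz.1, co_bs_self]
      rfl
    · rw [hz.2 y h, co_bs_ne H (Ne.symm h)]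
      rfl
  have h1 : Bf H (bs H a * bs H b) (bs H a' * bs H b') = 1 := by
    rw [hpr hz, hpr hz', Bf_bs, co_bs_self]
  rw [Bf_mul, dd_only ha hb', Bf_bs] at h1
  unfold dd at h1
  rw [lin_bs, Finset.sum_mul, map_sum] at h1
  obtain ⟨y, _, hy⟩ := Finset.exists_ne_zero_of_sum_ne_zero (by rw [h1]; exact one_ne_zero)
  rw [smul_mul_assoc, map_nsmul, co_mul, nsmul_eq_mul] at hy
  have h2 : H.c a y a' ≠ 0 := by exact_mod_cast left_ne_zero_of_mul hy
  have h3 : H.c y b' b ≠ 0 := by exact_mod_cast right_ne_zero_of_mul hy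
  have h4 : y = H.one := by
    refine eq_one_of (p := p) ?_ (away_of_dvd h3 hb)
    have h5 := h2
    rw [H.c_comm] at h5
    exact only_of_dvd h5 ha'
  rw [h4] at h2 h3
  rw [H.c_comm] at h3
  exact ⟨(c_one_ne_zero h2).symm, c_one_ne_zero h3⟩

/-- **Row A3.** -/
theorem rowA3 : RowA3 := by
  intro I H p hp
  refine ⟨fun a b ha hb => prod_ex ha hb, fun z => ?_⟩
  obtain ⟨ab, h1, h2, h3⟩ := fact_ex hp z
  refine ⟨ab, ⟨h1, h2, h3⟩, ?_⟩
  rintro ab' ⟨h1', h2', h3'⟩
  obtain ⟨h4, h5⟩ := fact_unique h1' h2' h3' h1 h2 h3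
  exact Prod.ext h4 h5

end Vale.Agent.P275.H93
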