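import Vale.Agent.P275.H93.Ortho

/-!
Pieri's formula for the determinants of Jacobi and Trudi; products of complete homogeneous elements
are integer combinations of the determinants of partitions.
-/

set_option linter.unusedSectionVars false

namespace Vale.Agent.P275.H93

open Finset

section pieri

variable {R : Type*} [CommRing R] {n : ℕ}

/-- the determinant of Jacobi and Trudi -/
noncomputable def Sd (h : ℤ → R) (a : Fin n → ℤ) : R :=
  (Matrix.of fun j i : Fin n => h (a i + j)).det

theorem Adj.S_eq_Sd {k : Type*} [CommRing k] (A : Adj R k) (a : Fin n → ℤ) :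
    A.S a = Sd A.h a := rfl

/-- the tail series -/
noncomputable def Gs (h : ℤ → R) (m : ℤ) : PowerSeries R := PowerSeries.mk fun c => h (m + c)

theorem Gs_eq (h : ℤ → R) (m : ℤ) :
    Gs h m = PowerSeries.C (h m) + PowerSeries.X * Gs h (m + 1) := by
  ext c
  unfold Gs
  rw [map_add, PowerSeries.coeff_mk]
  cases c with
  | zero => simp
  | succ c =>
    rw [mul_comm PowerSeries.X, PowerSeries.coeff_succ_mul_X, PowerSeries.coeff_mk,
      PowerSeries.coeff_C, if_neg (by omega), zero_add]
    congr 1
    push_cast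
    ring

variable (h : ℤ → R)

theorem coeff_det_Gs (a : Fin n → ℤ) (m : ℕ) :
    PowerSeries.coeff m (Matrix.of fun j i : Fin n => Gs h (a i + j)).det =
      ∑ c ∈ finsuppAntidiag univ m, Sd h (fun i => a i + c i) := by
  unfold Sd
  simp_rw [Matrix.det_apply]
  rw [map_sum, Finset.sum_comm]
  refine Finset.sum_congr rfl fun σ _ => ?_
  rw [← Finset.smul_sum, Units.smul_def, Units.smul_def, map_zsmul, PowerSeries.coeff_prod]
  refine congrArg _ (Finset.sum_congr rfl fun c _ => Finset.prod_congr rfl fun i _ => ?_)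
  rw [Matrix.of_apply, Matrix.of_apply]
  unfold Gs
  rw [PowerSeries.coeff_mk]
  congr 1
  ring

variable (h0 : h 0 = 1) (hneg : ∀ m < 0, h m = 0)
include h0 hneg

/-- the vector with one more entry -/
def ext1 (a : Fin n → ℤ) : Fin (n + 1) → ℤ := Fin.snoc a (-(n : ℤ))

omit h0 hneg in
theorem ext1_castSucc (a : Fin n → ℤ) (i : Fin n) : ext1 a i.castSucc = a i :=
  Fin.snoc_castSucc _ _ _

omit h0 hneg in
theorem ext1_last (a : Fin n → ℤ) : ext1 a (Fin.last n) = -(n : ℤ) := Fin.snoc_last _ _

theorem det_Gs (a : Fin n → ℤ) :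
    (Matrix.of fun j i : Fin (n + 1) => Gs h (ext1 a i + j)).det =
      Gs h 0 * PowerSeries.C (Sd h a) := by
  -- the matrix after the row operations
  let G' : Matrix (Fin (n + 1)) (Fin (n + 1)) (PowerSeries R) := Matrix.of fun j i =>
    if (j : ℕ) < n then PowerSeries.C (h (ext1 a i + j)) else Gs h (ext1 a i + j)
  have h1 : (Matrix.of fun j i : Fin (n + 1) => Gs h (ext1 a i + j)).det = G'.det := by
    have h2 : ((Matrix.of fun j i : Fin (n + 1) => Gs h (ext1 a i + j)).submatrix
        Fin.revPerm id).det = (G'.submatrix Fin.revPerm id).det := by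
      refine Matrix.det_eq_of_forall_row_eq_smul_add_pred (fun _ => PowerSeries.X) ?_ ?_
      · intro i
        simp only [Matrix.submatrix_apply, Matrix.of_apply, G', Fin.revPerm_apply, id]
        rw [if_neg]
        simp
      · intro j i
        simp only [Matrix.submatrix_apply, Matrix.of_apply, G', Fin.revPerm_apply, id]
        have e1 : (Fin.rev j.succ : ℕ) = n - 1 - j := by
          rw [Fin.val_rev, Fin.val_succ]
          omega
        have e2 : (Fin.rev j.castSucc : ℕ) = n - j := by
          rw [Fin.val_rev, Fin.val_castSucc]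
          omega
        have hj := j.2
        rw [if_pos (by rw [e1]; omega), Gs_eq]
        congr 2
        congr 1
        rw [e1, e2]
        omega
    rw [Matrix.det_permute, Matrix.det_permute] at h2
    have h3 : IsUnit ((Equiv.Perm.sign (Fin.revPerm : Equiv.Perm (Fin (n + 1))) : ℤ) :
        PowerSeries R) := by
      have := (Equiv.Perm.sign (Fin.revPerm : Equiv.Perm (Fin (n + 1)))).isUnit
      exact this.map (Int.castRingHom (PowerSeries R))
    exact h3.mul_left_cancel h2
  rw [h1, Matrix.det_succ_column G' (Fin.last n), Finset.sum_eq_single (Fin.last n)]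
  · have h4 : G' (Fin.last n) (Fin.last n) = Gs h 0 := by
      simp only [G', Matrix.of_apply, Fin.val_last, lt_irrefl, if_false]
      rw [ext1_last]
      congr 1
      omega
    have h5 : (G'.submatrix (Fin.last n).succAbove (Fin.last n).succAbove).det =
        PowerSeries.C (Sd h a) := by
      unfold Sd
      rw [RingHom.map_det]
      congr 1
      ext1 j i
      simp only [Matrix.submatrix_apply, Fin.succAbove_last, G', Matrix.of_apply,
        RingHom.mapMatrix_apply, Matrix.map_apply, Fin.val_castSucc]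
      rw [if_pos j.2, ext1_castSucc]
    rw [h4, h5, Even.neg_one_pow ⟨_, rfl⟩, one_mul]
  · intro j _ hj
    have h6 : (j : ℕ) < n := by
      have := j.2
      have h7 : (j : ℕ) ≠ n := fun h7 => hj (Fin.ext h7)
      omega
    have h7 : G' j (Fin.last n) = 0 := by
      simp only [G', Matrix.of_apply]
      rw [if_pos h6, ext1_last, hneg, map_zero]
      omega
    rw [h7, mul_zero, zero_mul]
  · intro hcon
    exact absurd (Finset.mem_univ _) hcon

/-- **Pieri's formula.** -/
theorem pieri (a : Fin n → ℤ) (m : ℕ) :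
    h m * Sd h a = ∑ c ∈ finsuppAntidiag univ m, Sd h (fun i => ext1 a i + c i) := by
  rw [← coeff_det_Gs, det_Gs h h0 hneg, PowerSeries.coeff_mul_C]
  unfold Gs
  rw [PowerSeries.coeff_mk, zero_add]

/-- an empty part may be added -/
theorem Sd_ext1 (a : Fin n → ℤ) : Sd h (ext1 a) = Sd h a := by
  have h1 := pieri h h0 hneg a 0
  rw [Nat.cast_zero, h0, one_mul, finsuppAntidiag_zero, Finset.sum_singleton] at h1
  rw [h1]
  congr 1
  funext i
  simp

omit h0 in
theorem Sd_eq_zero (a : Fin n → ℤ) (i : Fin n) (hi : a i ≤ -(n : ℤ)) : Sd h a = 0 := by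
  unfold Sd
  refine Matrix.det_eq_zero_of_column_eq_zero i fun j => ?_
  rw [Matrix.of_apply, hneg]
  have := j.2
  omega

omit h0 hneg in
theorem Sd_eq_zero_of_eq (a : Fin n → ℤ) {i j : Fin n} (hij : i ≠ j) (h1 : a i = a j) :
    Sd h a = 0 := by
  unfold Sd
  refine Matrix.det_zero_of_column_eq hij fun l => ?_
  rw [Matrix.of_apply, Matrix.of_apply, h1]

omit h0 hneg in
theorem Sd_perm (a : Fin n → ℤ) (σ : Equiv.Perm (Fin n)) :
    Sd h (fun i => a (σ i)) = (Equiv.Perm.sign σ : ℤ) * Sd h a := by
  unfold Sd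
  rw [← Matrix.det_permute']
  rfl

omit h0 hneg in
/-- a strictly decreasing integer vector, normalised -/
theorem antitone_add (b : Fin n → ℤ) (hb : StrictAnti b) : Antitone fun i : Fin n => b i + i := by
  cases n with
  | zero => exact fun i => i.elim0
  | succ n =>
    rw [Fin.antitone_iff_succ_le]
    intro i
    have h1 : b i.succ < b i.castSucc := hb (Fin.castSucc_lt_succ)
    simp only [Fin.val_succ, Fin.val_castSucc]
    push_cast
    omega

/-- the element attached to a partition -/
noncomputable def sd (p : Fin n → ℕ) : R := Sd h fun i => (p i : ℤ) - i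

omit h0 in
/-- straightening -/
theorem straighten (a : Fin n → ℤ) : Sd h a = 0 ∨ ∃ p : Fin n → ℕ, Antitone p ∧
    (∑ i, (p i : ℤ) = ∑ i, (a i + i)) ∧ (Sd h a = sd h p ∨ Sd h a = -sd h p) := by
  by_cases h1 : ∃ i, a i ≤ -(n : ℤ)
  · obtain ⟨i, hi⟩ := h1
    exact Or.inl (Sd_eq_zero h hneg a i hi)
  by_cases h2 : Function.Injective a
  · right
    push Not at h1
    -- sort
    let f : Fin n → ℤ := fun i => -a i
    let σ : Equiv.Perm (Fin n) := Tuple.sort f
    have h3 : Monotone (f ∘ σ) := Tuple.monotone_sort f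
    have h4 : StrictAnti fun i => a (σ i) := by
      intro i j hij
      have h5 : f (σ i) ≤ f (σ j) := h3 hij.le
      have h6 : a (σ i) ≠ a (σ j) := fun h7 => hij.ne (σ.injective (h2 h7))
      simp only [f] at h5
      change a (σ j) < a (σ i)
      omega
    have h7 := antitone_add _ h4
    have h8 : ∀ i : Fin n, 0 ≤ a (σ i) + i := by
      intro i
      cases n with
      | zero => exact i.elim0
      | succ n =>
        have h9 : a (σ (Fin.last n)) + (Fin.last n : Fin (n + 1)) ≤ a (σ i) + i :=
          h7 (Fin.le_last i)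
        have h10 := h1 (σ (Fin.last n))
        rw [Fin.val_last] at h9
        push_cast at h10
        omega
    refine ⟨fun i => (a (σ i) + i).toNat, ?_, ?_, ?_⟩
    · intro i j hij
      exact Int.toNat_le_toNat (h7 hij)
    · have h9 : ∀ i : Fin n, (((a (σ i) + i).toNat : ℕ) : ℤ) = a (σ i) + i := fun i =>
        Int.toNat_of_nonneg (h8 i)
      simp_rw [h9, Finset.sum_add_distrib]
      rw [Equiv.sum_comp σ a]
    · have h9 : sd h (fun i => (a (σ i) + i).toNat) = Sd h (fun i => a (σ i)) := by
        unfold sd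
        congr 1
        funext i
        rw [Int.toNat_of_nonneg (h8 i)]
        ring
      rw [h9, Sd_perm]
      rcases Int.units_eq_one_or (Equiv.Perm.sign σ) with h10 | h10
      · left
        rw [h10]
        simp
      · right
        rw [h10]
        simp
  · left
    unfold Function.Injective at h2
    push Not at h2
    obtain ⟨i, j, hij, hne⟩ := h2
    exact Sd_eq_zero_of_eq h a hne hij

/-- the span of the determinants of degree `N` with `n` columns -/
noncomputable def SpA (n N : ℕ) : Submodule ℤ R :=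
  Submodule.span ℤ {x | ∃ a : Fin n → ℤ, ∑ i, (a i + i) = N ∧ x = Sd h a}

theorem ext1_sum (a : Fin n → ℤ) (c : Fin (n + 1) → ℤ) :
    ∑ i, (ext1 a i + c i + (i : ℤ)) = ∑ i, (a i + i) + ∑ i, c i := by
  have h1 : ∀ i : Fin (n + 1), ext1 a i + c i + (i : ℤ) = (ext1 a i + (i : ℤ)) + c i := fun i => by
    ring
  simp_rw [h1]
  rw [Finset.sum_add_distrib, Fin.sum_univ_castSucc]
  congr 1
  rw [ext1_last, Fin.val_last]
  simp_rw [ext1_castSucc, Fin.val_castSucc]
  ring

theorem SpA_mono (n N : ℕ) : SpA h n N ≤ SpA h (n + 1) N := by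
  unfold SpA
  rw [Submodule.span_le]
  rintro x ⟨a, ha, rfl⟩
  refine Submodule.subset_span ⟨ext1 a, ?_, (Sd_ext1 h h0 hneg a).symm⟩
  have h1 := ext1_sum h h0 hneg a 0
  simp only [Pi.zero_apply, add_zero, Finset.sum_const_zero] at h1
  rw [h1, ha]

theorem SpA_mul (n N m : ℕ) {x : R} (hx : x ∈ SpA h n N) : h m * x ∈ SpA h (n + 1) (m + N) := by
  unfold SpA at hx
  refine Submodule.span_induction (p := fun x _ => h m * x ∈ SpA h (n + 1) (m + N)) ?_ ?_ ?_ ?_ hx
  · rintro x ⟨a, ha, rfl⟩
    rw [pieri h h0 hneg]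
    refine Submodule.sum_mem _ fun c hc => Submodule.subset_span ⟨_, ?_, rfl⟩
    have h1 := ext1_sum h h0 hneg a (fun i => (c i : ℤ))
    rw [h1, ha]
    rw [mem_finsuppAntidiag] at hc
    have h2 : ∑ i, ((c i : ℕ) : ℤ) = m := by
      rw [← hc.1]
      push_cast
      rfl
    rw [h2]
    push_cast
    ring
  · rw [mul_zero]
    exact Submodule.zero_mem _
  · intro x y _ _ hx hy
    rw [mul_add]
    exact Submodule.add_mem _ hx hy
  · intro c x _ hx
    rw [mul_smul_comm]
    exact Submodule.smul_mem _ _ hx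

theorem prod_mem_SpA : ∀ (r : ℕ) (m : Fin r → ℕ), ∏ i, h (m i) ∈ SpA h r (∑ i, m i)
  | 0, m => by
    refine Submodule.subset_span ⟨fun i => i.elim0, ?_, ?_⟩
    · simp
    · unfold Sd
      simp
  | r + 1, m => by
    rw [Fin.prod_univ_succ, Fin.sum_univ_succ]
    exact SpA_mul h h0 hneg _ _ _ (prod_mem_SpA r _)

/-- the partitions of `N` with at most `n` parts, as vectors -/
noncomputable def Par (n N : ℕ) : Finset (Fin n → ℕ) := by
  classical exact (Finset.piAntidiag univ N).filter Antitone

omit h0 hneg in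
theorem mem_Par {n N : ℕ} {p : Fin n → ℕ} : p ∈ Par n N ↔ ∑ i, p i = N ∧ Antitone p := by
  classical
  unfold Par
  rw [Finset.mem_filter, Finset.mem_piAntidiag]
  simp

theorem SpA_le (n N : ℕ) :
    SpA h n N ≤ Submodule.span ℤ (sd h '' (Par n N : Set (Fin n → ℕ))) := by
  unfold SpA
  rw [Submodule.span_le]
  rintro x ⟨a, ha, rfl⟩
  rcases straighten h hneg a with h1 | ⟨p, hp, hs, h2⟩
  · rw [h1]
    exact Submodule.zero_mem _
  · have h3 : sd h p ∈ Submodule.span ℤ (sd h '' (Par n N : Set (Fin n → ℕ))) := by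
      refine Submodule.subset_span ⟨p, ?_, rfl⟩
      rw [Finset.mem_coe, mem_Par]
      refine ⟨?_, hp⟩
      rw [ha] at hs
      exact_mod_cast hs
    rcases h2 with h2 | h2
    · rw [h2]
      exact h3
    · rw [h2]
      exact Submodule.neg_mem _ h3

/-- **Products are integer combinations of the elements of the partitions.** -/
theorem prod_eq_sum {r n : ℕ} (hrn : r ≤ n) (m : Fin r → ℕ) :
    ∃ c : (Fin n → ℕ) → ℤ, ∏ i, h (m i) = ∑ p ∈ Par n (∑ i, m i), c p • sd h p := by
  have h1 : ∏ i, h (m i) ∈ SpA h n (∑ i, m i) := by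
    obtain ⟨d, rfl⟩ := Nat.exists_eq_add_of_le hrn
    clear hrn
    induction d with
    | zero => exact prod_mem_SpA h h0 hneg r m
    | succ d ih => exact SpA_mono h h0 hneg _ _ ih
  have h2 := SpA_le h h0 hneg n (∑ i, m i) h1
  obtain ⟨c, hc⟩ := (Submodule.mem_span_image_finset_iff_exists_fun' ℤ).1 h2
  exact ⟨c, hc.symm⟩

end pieri

/-- the coefficients are given by the form -/
theorem Adj.coeff_eq {R k : Type*} [CommRing R] [CommRing k] (A : Adj R k) {n N : ℕ}
    (c : (Fin n → ℕ) → ℤ) (q : Fin n → ℕ) (hq : q ∈ Par n N) :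
    A.B (∑ p ∈ Par n N, c p • sd A.h p) (A.s q) = c q := by
  rw [map_sum, AddMonoidHom.finsetSum_apply, Finset.sum_eq_single q]
  · rw [map_zsmul, AddMonoidHom.zsmul_apply]
    have h1 := A.ortho_s q q (mem_Par.1 hq).2 (mem_Par.1 hq).2
    rw [if_pos rfl] at h1
    change c q • A.B (A.s q) (A.s q) = _
    rw [h1]
    simp
  · intro p hp hpq
    rw [map_zsmul, AddMonoidHom.zsmul_apply]
    have h1 := A.ortho_s p q (mem_Par.1 hp).2 (mem_Par.1 hq).2
    rw [if_neg hpq] at h1
    change c p • A.B (A.s p) (A.s q) = _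
    rw [h1, smul_zero]
  · intro h1
    exact absurd hq h1

end Vale.Agent.P275.H93
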