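import Vale.Agent.P275.H93.Rg
import Vale.Agent.P275.H93.Span

/-!
The form on the ring of a positive self-adjoint Hopf algebra, the adjoints of the multiplications,
and the self-adjoint ring of a chain.
-/

namespace Vale.Agent.P275.H93

open Finset Vale.Agent.P275.H341

variable {I : Type} (H : PSH I)

/-- the form -/
noncomputable def Bf : Rg H →+ Rg H →+ ℤ := lin H fun a => co H a

theorem Bf_bs (a : I) (f : Rg H) : Bf H (bs H a) f = co H a f := by
  unfold Bf
  rw [lin_bs]

theorem Bf_symm (f g : Rg H) : Bf H f g = Bf H g f := by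
  have h1 : Bf H = (Bf H).flip := by
    refine hom_ext H fun a => hom_ext H fun b => ?_
    rw [AddMonoidHom.flip_apply, Bf_bs, Bf_bs]
    by_cases h : a = b
    · rw [h]
    · rw [co_bs_ne H h, co_bs_ne H (Ne.symm h)]
  conv_lhs => rw [h1]
  rfl

/-- the adjoint of the multiplication with a basis element -/
noncomputable def dd (a : I) : Rg H →+ Rg H :=
  lin H fun b => ∑ y ∈ H.lvl (H.deg b - H.deg a), H.c a y b • bs H y

theorem co_dd (a b y : I) : co H y (dd H a (bs H b)) = H.c a y b := by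
  unfold dd
  rw [lin_bs]
  refine co_sum H y _ (fun y => H.c a y b) fun h => ?_
  have h1 := H.c_deg a y b h
  omega

theorem Bf_mul (a : I) (f g : Rg H) : Bf H (bs H a * f) g = Bf H f (dd H a g) := by
  induction f using Rg_ind H with
  | h0 => rw [mul_zero, map_zero, AddMonoidHom.zero_apply, AddMonoidHom.zero_apply]
  | hadd f f' hf hf' =>
    rw [mul_add, map_add, AddMonoidHom.add_apply, map_add, AddMonoidHom.add_apply, hf, hf']
  | hneg f hf => rw [mul_neg, map_neg, AddMonoidHom.neg_apply, map_neg, AddMonoidHom.neg_apply, hf]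
  | hbs b =>
    induction g using Rg_ind H with
    | h0 => rw [map_zero, map_zero, map_zero]
    | hadd f f' hf hf' => rw [map_add, map_add, map_add, hf, hf']
    | hneg f hf => rw [map_neg, map_neg, map_neg, hf]
    | hbs d => rw [Bf_bs, co_dd, Bf_symm, Bf_bs, co_mul]

theorem co_eq_Bf (x : I) (f : Rg H) : co H x f = Bf H f (bs H x) := by
  rw [Bf_symm, Bf_bs]

/-- the form of two products -/
theorem Bf_bs_mul (a b u v : I) : Bf H (bs H a * bs H b) (bs H u * bs H v) =
    ((∑ x ∈ H.lvl (H.deg a + H.deg b), H.c a b x * H.c u v x : ℕ) : ℤ) := by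
  rw [bs_mul]
  unfold bm
  rw [map_sum, AddMonoidHom.finsetSum_apply]
  push_cast
  refine Finset.sum_congr rfl fun x _ => ?_
  rw [map_nsmul, AddMonoidHom.nsmul_apply, Bf_bs, co_mul, nsmul_eq_mul]

theorem dd_eq_zero (a b : I) (h : H.deg b < H.deg a) : dd H a (bs H b) = 0 := by
  refine Rg_ext H fun y => ?_
  rw [co_dd, map_zero]
  have h1 : H.c a y b = 0 := by
    by_contra h1
    have h2 := H.c_deg a y b h1
    omega
  rw [h1]
  rfl

theorem co_dd_mul (a b d e u : I) : co H u (dd H a (bs H b) * dd H e (bs H d)) =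
    ∑ y ∈ H.lvl (H.deg b - H.deg a), ∑ z ∈ H.lvl (H.deg d - H.deg e),
      (H.c a y b : ℤ) * H.c e z d * H.c y z u := by
  unfold dd
  rw [lin_bs, lin_bs, Finset.sum_mul_sum, map_sum]
  refine Finset.sum_congr rfl fun y _ => ?_
  rw [map_sum]
  refine Finset.sum_congr rfl fun z _ => ?_
  rw [smul_mul_smul_comm, map_nsmul, co_mul, nsmul_eq_mul]
  push_cast
  ring

/-- **The adjoint of the multiplication at a product**, on the basis. -/
theorem dd_mul_bs (a b d : I) (T : Finset (I × I)) (hT : ∀ P : I × I, H.c P.1 P.2 a ≠ 0 → P ∈ T) :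
    dd H a (bs H b * bs H d) =
      ∑ P ∈ T, H.c P.1 P.2 a • (dd H P.1 (bs H b) * dd H P.2 (bs H d)) := by
  classical
  refine Rg_ext H fun u => ?_
  have h1 : co H u (dd H a (bs H b * bs H d)) =
      ((∑ x ∈ H.lvl (H.deg b + H.deg d), H.c b d x * H.c a u x : ℕ) : ℤ) := by
    rw [← Bf_bs_mul, Bf_symm, Bf_mul, Bf_bs]
  let G : I × I → ℤ := fun P => H.c P.1 P.2 a * co H u (dd H P.1 (bs H b) * dd H P.2 (bs H d))
  let T' : Finset (I × I) := ((range (H.deg b + 1)).biUnion H.lvl) ×ˢ
    ((range (H.deg d + 1)).biUnion H.lvl)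
  have hdis : ∀ n, Set.PairwiseDisjoint ((range n : Finset ℕ) : Set ℕ) H.lvl := by
    intro n i _ j _ hij
    refine Finset.disjoint_left.2 fun x hx hx' => hij ?_
    rw [← (H.mem_lvl _ _).1 hx, ← (H.mem_lvl _ _).1 hx']
  have h2 : co H u (dd H a (bs H b * bs H d)) = ∑ P ∈ T', G P := by
    rw [h1, H.hopf, Finset.sum_product, Finset.sum_biUnion (hdis _)]
    simp_rw [Finset.sum_biUnion (hdis _)]
    push_cast
    refine Finset.sum_congr rfl fun i _ => ?_
    rw [Finset.sum_comm]
    have hA : ∀ j ∈ range (H.deg d + 1), ∀ b1 ∈ H.lvl i, ∑ b2 ∈ H.lvl (H.deg b - i),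
        ∑ d1 ∈ H.lvl j, ∑ d2 ∈ H.lvl (H.deg d - j),
          (H.c b1 b2 b : ℤ) * H.c d1 d2 d * (H.c b1 d1 a * H.c b2 d2 u) =
        ∑ d1 ∈ H.lvl j, G (b1, d1) := by
      intro j _ b1 hb1
      rw [Finset.sum_comm]
      refine Finset.sum_congr rfl fun d1 hd1 => ?_
      simp only [G]
      rw [co_dd_mul, (H.mem_lvl _ _).1 hb1, (H.mem_lvl _ _).1 hd1, Finset.mul_sum]
      refine Finset.sum_congr rfl fun b2 _ => ?_
      rw [Finset.mul_sum]
      refine Finset.sum_congr rfl fun d2 _ => ?_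
      ring
    rw [Finset.sum_comm]
    rw [Finset.sum_comm' (t' := H.lvl i) (s' := fun _ => range (H.deg d + 1)) (by
      intro x y
      tauto)]
    refine Finset.sum_congr rfl fun b1 hb1 => Finset.sum_congr rfl fun j hj => ?_
    exact hA j hj b1 hb1
  have h3 : ∑ P ∈ T', G P = ∑ P ∈ T ∪ T', G P := by
    refine Finset.sum_subset Finset.subset_union_right fun P _ hP => ?_
    simp only [G]
    have h4 : H.deg b < H.deg P.1 ∨ H.deg d < H.deg P.2 := by
      by_contra hcon
      push Not at hcon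
      apply hP
      simp only [T', Finset.mem_product, Finset.mem_biUnion, Finset.mem_range]
      exact ⟨⟨_, Nat.lt_succ_of_le hcon.1, (H.mem_lvl _ _).2 rfl⟩,
        ⟨_, Nat.lt_succ_of_le hcon.2, (H.mem_lvl _ _).2 rfl⟩⟩
    rcases h4 with h4 | h4
    · rw [dd_eq_zero H _ _ h4, zero_mul, map_zero, mul_zero]
    · rw [dd_eq_zero H _ _ h4, mul_zero, map_zero, mul_zero]
  have h4 : ∑ P ∈ T, G P = ∑ P ∈ T ∪ T', G P := by
    refine Finset.sum_subset Finset.subset_union_left fun P _ hP => ?_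
    simp only [G]
    have h5 : H.c P.1 P.2 a = 0 := by
      by_contra h5
      exact hP (hT P h5)
    rw [h5, Nat.cast_zero, zero_mul]
  rw [h2, h3, ← h4, map_sum]
  refine Finset.sum_congr rfl fun P _ => ?_
  rw [map_nsmul, nsmul_eq_mul]

/-- **The adjoint of the multiplication at a product.** -/
theorem dd_mul (a : I) (f g : Rg H) (T : Finset (I × I))
    (hT : ∀ P : I × I, H.c P.1 P.2 a ≠ 0 → P ∈ T) :
    dd H a (f * g) = ∑ P ∈ T, H.c P.1 P.2 a • (dd H P.1 f * dd H P.2 g) := by
  induction f using Rg_ind H with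
  | h0 => simp
  | hadd f f' hf hf' =>
    rw [add_mul, map_add, hf, hf', ← Finset.sum_add_distrib]
    refine Finset.sum_congr rfl fun P _ => ?_
    rw [map_add, add_mul, smul_add]
  | hneg f hf =>
    rw [neg_mul, map_neg, hf, ← Finset.sum_neg_distrib]
    refine Finset.sum_congr rfl fun P _ => ?_
    rw [map_neg, neg_mul, smul_neg]
  | hbs b =>
    induction g using Rg_ind H with
    | h0 => simp
    | hadd f f' hf hf' =>
      rw [mul_add, map_add, hf, hf', ← Finset.sum_add_distrib]
      refine Finset.sum_congr rfl fun P _ => ?_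
      rw [map_add, mul_add, smul_add]
    | hneg f hf =>
      rw [mul_neg, map_neg, hf, ← Finset.sum_neg_distrib]
      refine Finset.sum_congr rfl fun P _ => ?_
      rw [map_neg, mul_neg, smul_neg]
    | hbs d => exact dd_mul_bs H a b d T hT

end Vale.Agent.P275.H93
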