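import Vale.Agent.P275.H93.Ad

/-!
The self-adjoint ring of a chain over a primitive element; positivity of the determinants of
Jacobi and Trudi.
-/

namespace Vale.Agent.P275.H93

open Finset Vale.Agent.P275.H341

variable {I : Type} {H : PSH I} {p : I} {x : ℕ → I}

theorem deg_chain (hx : H.Chain p x) (k : ℕ) : H.deg (x k) = k * H.deg p := by
  induction k with
  | zero => rw [hx.zero, deg_one', zero_mul]
  | succ k ih =>
    have h1 := H.c_deg (x k) (x 1) (x (k + 1)) (by rw [hx.cself]; exact one_ne_zero)
    rw [h1, ih, hx.first]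
    ring

theorem chain_inj (hp : H.Pr p) (hx : H.Chain p x) {i j : ℕ} (h : x i = x j) : i = j := by
  have h1 := deg_chain hx i
  rw [h, deg_chain hx j] at h1
  exact (Nat.eq_of_mul_eq_mul_right hp.1 h1).symm

/-- the complete elements -/
noncomputable def hc (H : PSH I) (x : ℕ → I) (m : ℤ) : Rg H :=
  if m < 0 then 0 else bs H (x m.toNat)

theorem hc_neg {m : ℤ} (h : m < 0) : hc H x m = 0 := if_pos h

theorem hc_nat (m : ℕ) : hc H x m = bs H (x m) := by
  unfold hc
  rw [if_neg (by omega), Int.toNat_natCast]

theorem dd_chain (hp : H.Pr p) (hx : H.Chain p x) (k : ℕ) (m : ℤ) :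
    dd H (x k) (hc H x m) = hc H x (m - k) := by
  by_cases hm : m < 0
  · rw [hc_neg hm, hc_neg (by omega), map_zero]
  obtain ⟨n, rfl⟩ : ∃ n : ℕ, m = n := ⟨m.toNat, by omega⟩
  rw [hc_nat]
  refine Rg_ext H fun y => ?_
  rw [co_dd]
  by_cases hk : k ≤ n
  · obtain ⟨l, rfl⟩ := Nat.exists_eq_add_of_le hk
    have h1 : ((k + l : ℕ) : ℤ) - k = l := by push_cast; ring
    rw [h1, hc_nat]
    by_cases hy : y = x l
    · rw [hy, hx.cself, co_bs_self]
      rfl
    · rw [co_bs_ne H (Ne.symm hy)]
      have h2 : H.c (x k) y (x (k + l)) = 0 := by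
        by_contra h2
        obtain ⟨i, j, hij, hi, hj⟩ := hx.cne _ _ _ h2
        have h3 := chain_inj hp hx hi
        apply hy
        rw [hj]
        congr 1
        omega
      rw [h2]
      rfl
  · rw [hc_neg (by omega), map_zero]
    have h2 : H.c (x k) y (x n) = 0 := by
      by_contra h2
      obtain ⟨i, j, hij, hi, hj⟩ := hx.cne _ _ _ h2
      have h3 := chain_inj hp hx hi
      omega
    rw [h2]
    rfl

theorem dd_one (f : Rg H) : dd H H.one f = f := by
  have h1 : dd H H.one = AddMonoidHom.id (Rg H) := by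
    refine hom_ext H fun a => Rg_ext H fun y => ?_
    rw [co_dd, AddMonoidHom.id_apply]
    by_cases h : a = y
    · rw [h, H.c_one_self, co_bs_self]
      rfl
    · rw [H.c_one_ne y a h, co_bs_ne H h]
      rfl
  rw [h1, AddMonoidHom.id_apply]

/-- the adjoint at a product, for an element of the chain -/
theorem dd_chain_mul (hp : H.Pr p) (hx : H.Chain p x) (k : ℕ) (f g : Rg H) :
    dd H (x k) (f * g) = ∑ P ∈ antidiagonal k, dd H (x P.1) f * dd H (x P.2) g := by
  classical
  rw [dd_mul H (x k) f g ((antidiagonal k).image fun P => (x P.1, x P.2))]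
  · rw [Finset.sum_image]
    · refine Finset.sum_congr rfl fun P hP => ?_
      have h1 := hx.cself P.1 P.2
      rw [mem_antidiagonal.1 hP] at h1
      rw [h1, one_smul]
    · intro P _ P' _ h
      simp only [Prod.mk.injEq] at h
      exact Prod.ext (chain_inj hp hx h.1) (chain_inj hp hx h.2)
  · intro P hP
    obtain ⟨i, j, hij, hi, hj⟩ := hx.cne _ _ _ hP
    rw [Finset.mem_image]
    exact ⟨(i, j), mem_antidiagonal.2 hij, Prod.ext hi.symm hj.symm⟩

/-- the self-adjoint ring of a chain -/
noncomputable def adj (hp : H.Pr p) (hx : H.Chain p x) : Adj (Rg H) ℤ where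
  B := Bf H
  h := hc H x
  D k := dd H (x k)
  h0 := by
    have h1 := hc_nat (H := H) (x := x) 0
    rw [hx.zero] at h1
    exact h1
  hneg m hm := hc_neg hm
  D0 := by
    ext f
    rw [hx.zero, dd_one, AddMonoidHom.id_apply]
  Dh k m := dd_chain hp hx k m
  Dmul k a b := dd_chain_mul hp hx k a b
  adj m a b := by
    rw [hc_nat]
    exact Bf_mul H (x m) a b
  symm a b := Bf_symm H a b
  B1 := by
    rw [one_def, Bf_bs, co_bs_self]

/-- the underlying function -/
def fs (f : Rg H) : I →₀ ℤ := f

theorem co_eq_fs (f : Rg H) (a : I) : co H a f = fs f a := rfl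

theorem Bf_eq_sum (g f : Rg H) : Bf H g f = ∑ a ∈ (fs g).support, fs g a * fs f a := by
  have h3 : (Bf H).flip f = Finsupp.liftAddHom fun a => (zmultiplesHom ℤ) (fs f a) := by
    refine hom_ext H fun a => ?_
    rw [AddMonoidHom.flip_apply, Bf_bs]
    exact (lin_bs H (fun a => fs f a) a).symm
  have h4 : Bf H g f = (Bf H).flip f g := rfl
  rw [h4, h3]
  exact Finsupp.liftAddHom_apply _ _

/-- an element of norm one is a basis element up to the sign -/
theorem pm_bs (f : Rg H) (hf : Bf H f f = 1) : ∃ y, f = bs H y ∨ f = -bs H y := by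
  classical
  have h2 := Bf_eq_sum f f
  rw [hf] at h2
  have h3 : ∃ y, fs f y ≠ 0 := by
    by_contra hcon
    push Not at hcon
    rw [Finset.sum_eq_zero fun y _ => by rw [hcon y, mul_zero]] at h2
    exact one_ne_zero h2
  obtain ⟨y, hy⟩ := h3
  have hy' : y ∈ (fs f).support := Finsupp.mem_support_iff.2 hy
  rw [← Finset.add_sum_erase _ _ hy'] at h2
  have h4 : 1 ≤ fs f y * fs f y := by
    rcases lt_or_gt_of_ne hy with h | h <;> nlinarith
  have h5 : ∀ z ∈ (fs f).support.erase y, 0 ≤ fs f z * fs f z :=
    fun z _ => mul_self_nonneg _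
  have h6 : ∑ z ∈ (fs f).support.erase y, fs f z * fs f z = 0 :=
    le_antisymm (by omega) (Finset.sum_nonneg h5)
  have h7 : ∀ z, z ≠ y → fs f z = 0 := by
    intro z hz
    by_contra h
    have h8 := (Finset.sum_eq_zero_iff_of_nonneg h5).1 h6 z
      (Finset.mem_erase.2 ⟨hz, Finsupp.mem_support_iff.2 h⟩)
    exact h (mul_self_eq_zero.1 h8)
  have h8 : fs f y * fs f y = 1 := by omega
  refine ⟨y, ?_⟩
  rcases mul_self_eq_one_iff.1 h8 with h9 | h9
  · left
    refine Rg_ext H fun z => ?_
    by_cases hz : z = y
    · rw [hz, co_bs_self]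
      exact h9
    · rw [co_bs_ne H (Ne.symm hz)]
      exact h7 z hz
  · right
    refine Rg_ext H fun z => ?_
    by_cases hz : z = y
    · rw [hz, map_neg, co_bs_self]
      exact h9
    · rw [map_neg, co_bs_ne H (Ne.symm hz)]
      exact h7 z hz

theorem co_dd_nonneg (a b y : I) : 0 ≤ co H y (dd H a (bs H b)) := by
  rw [co_dd]
  exact Int.natCast_nonneg _

/-- the determinant of a partition does not change if a zero is added -/
theorem sd_snoc {R : Type*} [CommRing R] (h : ℤ → R) (h0 : h 0 = 1) (hneg : ∀ m < 0, h m = 0)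
    {n : ℕ} (q : Fin n → ℕ) : sd h (Fin.snoc q 0 : Fin (n + 1) → ℕ) = sd h q := by
  have h1 := Sd_ext1 h h0 hneg (fun i : Fin n => (q i : ℤ) - i)
  unfold sd
  rw [← h1]
  congr 1
  funext i
  refine Fin.lastCases ?_ (fun i => ?_) i
  · rw [ext1_last, Fin.snoc_last, Fin.val_last]
    simp
  · rw [ext1_castSucc, Fin.snoc_castSucc, Fin.val_castSucc]

theorem sd_zero {R : Type*} [CommRing R] (h : ℤ → R) (h0 : h 0 = 1) (hneg : ∀ m < 0, h m = 0)
    (n : ℕ) : sd h (fun _ : Fin n => 0) = 1 := by
  induction n with
  | zero =>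
    unfold sd Sd
    exact Matrix.det_isEmpty
  | succ n ih =>
    rw [← ih, ← sd_snoc h h0 hneg (fun _ : Fin n => 0)]
    congr 1
    funext i
    refine Fin.lastCases ?_ (fun i => ?_) i
    · rw [Fin.snoc_last]
    · rw [Fin.snoc_castSucc]

/-- the determinant of a partition with one box less vanishes or belongs to a partition -/
theorem sub_box {R : Type*} [CommRing R] (h : ℤ → R) (hneg : ∀ m < 0, h m = 0)
    {n : ℕ} (q : Fin n → ℕ) (hq : Antitone q) (i : Fin n) (l : Fin n → ℕ)
    (hl : ∀ j, l j = if j = i then 1 else 0) :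
    Sd h (fun j => (q j : ℤ) - j - (l j : ℕ)) = 0 ∨ ∃ r : Fin n → ℕ, Antitone r ∧
      ∑ j, r j + 1 = ∑ j, q j ∧ Sd h (fun j => (q j : ℤ) - j - (l j : ℕ)) = sd h r := by
  by_cases h1 : ∃ j : Fin n, (j : ℕ) = i + 1 ∧ q j = q i
  · obtain ⟨j, hj, hq'⟩ := h1
    left
    have hne : j ≠ i := by
      rintro rfl
      omega
    refine Sd_eq_zero_of_eq h _ hne ?_
    rw [hl, hl, if_neg hne, if_pos rfl, hq']
    omega
  · push Not at h1
    by_cases h2 : q i = 0
    · left
      have h3 : (i : ℕ) + 1 = n := by
        by_contra h3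
        have hi := i.2
        have h4 : (i : ℕ) + 1 < n := by omega
        have h5 := h1 ⟨i + 1, h4⟩ rfl
        have h6 : q ⟨i + 1, h4⟩ ≤ q i := hq (Fin.le_def.2 (by simp))
        omega
      refine Sd_eq_zero h hneg _ i ?_
      rw [hl, if_pos rfl, h2]
      omega
    · right
      refine ⟨fun j => q j - l j, ?_, ?_, ?_⟩
      · intro j j' hjj
        have h3 := hq hjj
        simp only
        rw [hl, hl]
        by_cases hj : j = i
        · by_cases hj' : j' = i
          · rw [if_pos hj, if_pos hj']
            omega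
          · rw [if_pos hj, if_neg hj']
            have h4 : (j : ℕ) < j' := lt_of_le_of_ne hjj (fun h4 => hj' (by
              rw [← hj]
              exact (Fin.ext h4).symm))
            have h5 : (i : ℕ) + 1 ≤ j' := by
              rw [← hj]
              exact h4
            have h6 : (i : ℕ) + 1 < n := lt_of_le_of_lt h5 j'.2
            have h7 := h1 ⟨i + 1, h6⟩ rfl
            have h8 : q ⟨i + 1, h6⟩ ≤ q i := hq (Fin.le_def.2 (by simp))
            have h9 : q j' ≤ q ⟨i + 1, h6⟩ := hq (Fin.le_def.2 h5)
            rw [hj]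
            omega
        · rw [if_neg hj]
          omega
      · have h3 : ∀ j, q j = (q j - l j) + l j := by
          intro j
          rw [hl]
          by_cases hj : j = i
          · rw [if_pos hj, hj]
            omega
          · rw [if_neg hj]
            omega
        have h4 : ∑ j, q j = ∑ j, (q j - l j) + ∑ j, l j := by
          rw [← Finset.sum_add_distrib]
          exact Finset.sum_congr rfl fun j _ => h3 j
        have h5 : ∑ j, l j = 1 := by
          simp_rw [hl]
          simp
        rw [h4, h5]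
      · unfold sd
        congr 1
        funext j
        have h3 : l j ≤ q j := by
          rw [hl]
          by_cases hj : j = i
          · rw [if_pos hj, hj]
            omega
          · rw [if_neg hj]
            omega
        simp only
        omega

/-- **Positivity: the determinant of a partition is a basis element.** -/
theorem sd_eq_bs (hp : H.Pr p) (hx : H.Chain p x) : ∀ (N n : ℕ) (q : Fin n → ℕ), Antitone q →
    ∑ i, q i = N → ∃ y, sd (hc H x) q = bs H y
  | 0, n, q, _, hs => by
    refine ⟨H.one, ?_⟩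
    have h1 : q = fun _ => 0 := by
      funext i
      exact (Finset.sum_eq_zero_iff.1 hs) i (Finset.mem_univ i)
    rw [h1]
    exact sd_zero (hc H x) (adj hp hx).h0 (adj hp hx).hneg n
  | N + 1, n, q, hq, hs => by
    classical
    have h1 : Bf H (sd (hc H x) q) (sd (hc H x) q) = 1 := by
      have h2 := (adj hp hx).ortho_s q q hq hq
      rw [if_pos rfl] at h2
      exact h2
    obtain ⟨y, hy | hy⟩ := pm_bs _ h1
    · exact ⟨y, hy⟩
    exfalso
    have h2 : dd H (x 1) (sd (hc H x) q) =
        ∑ l ∈ finsuppAntidiag univ 1, Sd (hc H x) (fun i => (q i : ℤ) - i - (l i : ℕ)) :=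
      (adj hp hx).D_S 1 (fun i => (q i : ℤ) - i)
    have h3 : ∀ l ∈ finsuppAntidiag (univ : Finset (Fin n)) 1, ∃ i, ∀ j, l j = if j = i then 1
        else 0 := by
      intro l hl
      rw [mem_finsuppAntidiag] at hl
      have h4 : ∃ i, l i ≠ 0 := by
        by_contra hcon
        push Not at hcon
        rw [Finset.sum_eq_zero fun i _ => hcon i] at hl
        exact zero_ne_one hl.1
      obtain ⟨i, hi⟩ := h4
      have h5 := hl.1
      rw [← Finset.add_sum_erase univ l (Finset.mem_univ i)] at h5
      have h6 : ∑ j ∈ univ.erase i, l j = 0 := by omega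
      refine ⟨i, fun j => ?_⟩
      by_cases hj : j = i
      · rw [if_pos hj, hj]
        omega
      · rw [if_neg hj]
        exact (Finset.sum_eq_zero_iff.1 h6) j (Finset.mem_erase.2 ⟨hj, Finset.mem_univ j⟩)
    have h4 : ∀ l ∈ finsuppAntidiag (univ : Finset (Fin n)) 1, ∀ z,
        0 ≤ co H z (Sd (hc H x) (fun i => (q i : ℤ) - i - (l i : ℕ))) := by
      intro l hl z
      obtain ⟨i, hi⟩ := h3 l hl
      rcases sub_box (hc H x) (adj hp hx).hneg q hq i l hi with h5 | ⟨r, hr, hrs, h5⟩
      · rw [h5, map_zero]
      · obtain ⟨y', hy'⟩ := sd_eq_bs hp hx N n r hr (by omega)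
        rw [h5, hy', co_bs]
        split_ifs
        · exact zero_le_one
        · exact le_rfl
    -- the last nonempty row
    have h5 : ∃ i, 0 < q i ∧ ∀ j, i < j → q j = 0 := by
      have h6 : (univ.filter fun i => 0 < q i).Nonempty := by
        by_contra hcon
        rw [Finset.not_nonempty_iff_eq_empty, Finset.filter_eq_empty_iff] at hcon
        rw [Finset.sum_eq_zero fun i hi => by
          have := hcon hi
          omega] at hs
        omega
      refine ⟨_, (Finset.mem_filter.1 (Finset.max'_mem _ h6)).2, fun j hj => ?_⟩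
      by_contra h7
      have h8 := Finset.le_max' (univ.filter fun i => 0 < q i) j
        (Finset.mem_filter.2 ⟨Finset.mem_univ j, by omega⟩)
      exact absurd hj (not_lt.2 h8)
    obtain ⟨i, hi, hi'⟩ := h5
    let l : Fin n →₀ ℕ := Finsupp.single i 1
    have hl : ∀ j, l j = if j = i then 1 else 0 := by
      intro j
      simp only [l]
      rw [Finsupp.single_apply]
      exact if_congr eq_comm rfl rfl
    have hl' : l ∈ finsuppAntidiag (univ : Finset (Fin n)) 1 := by
      rw [mem_finsuppAntidiag]
      refine ⟨?_, fun j _ => Finset.mem_univ j⟩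
      change ∑ j, l j = 1
      simp_rw [hl]
      simp
    have h6 : Sd (hc H x) (fun i => (q i : ℤ) - i - (l i : ℕ)) ≠ 0 := by
      intro h7
      rcases sub_box (hc H x) (adj hp hx).hneg q hq i l hl with h5 | ⟨r, hr, hrs, h5⟩
      · -- the explicit partition
        have h8 : Antitone fun j => q j - l j := by
          intro j j' hjj
          have h9 := hq hjj
          simp only
          rw [hl, hl]
          by_cases hj' : i < j'
          · rw [hi' j' hj']
            omega
          · by_cases hj : j = i
            · have h10 : j' = i := le_antisymm (not_lt.1 hj') (hj ▸ hjj)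
              rw [hj, h10]
            · rw [if_neg hj]
              omega
        have h9 : Sd (hc H x) (fun j => (q j : ℤ) - j - (l j : ℕ)) = sd (hc H x) fun j => q j - l j := by
          unfold sd
          congr 1
          funext j
          have h3 : l j ≤ q j := by
            rw [hl]
            by_cases hj : j = i
            · rw [if_pos hj, hj]
              omega
            · rw [if_neg hj]
              omega
          simp only
          omega
        have h10 := (adj hp hx).ortho_s _ _ h8 h8
        rw [if_pos rfl] at h10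
        have h11 : (adj hp hx).s (fun j => q j - l j) = 0 := h9.symm.trans h5
        rw [h11, map_zero] at h10
        exact zero_ne_one h10
      · have h10 := (adj hp hx).ortho_s r r hr hr
        rw [if_pos rfl] at h10
        have h11 : (adj hp hx).s r = 0 := h5.symm.trans h7
        rw [h11, map_zero] at h10
        exact zero_ne_one h10
    have h7 : ∃ z, co H z (Sd (hc H x) (fun i => (q i : ℤ) - i - (l i : ℕ))) ≠ 0 := by
      by_contra hcon
      push Not at hcon
      exact h6 (Rg_ext H fun z => by rw [hcon z, map_zero])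
    obtain ⟨z, hz⟩ := h7
    have h8 : 0 < co H z (dd H (x 1) (sd (hc H x) q)) := by
      rw [h2, map_sum]
      refine Finset.sum_pos' (fun l hl => h4 l hl z) ⟨l, hl', ?_⟩
      exact lt_of_le_of_ne (h4 l hl' z) (Ne.symm hz)
    rw [hy, map_neg, map_neg] at h8
    have h9 := co_dd_nonneg (H := H) (x 1) y z
    omega

end Vale.Agent.P275.H93
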