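import Vale.Agent.P275.H93.E4

/-!
# Row E4, continued: the count
-/

set_option linter.style.haveILetI false
set_option linter.unusedSectionVars false

namespace Vale.Agent.P275.H93

open scoped BigOperators MatrixGroups
open Module Matrix Vale.Agent.P275.H85 Vale.Agent.P275.H341

variable {F E : Type} [Field F] [Fintype F] [DecidableEq F] [Field E] [Fintype E] [DecidableEq E]
  [Algebra F E]

theorem inc_inj : Function.Injective (inc (F := F) E) := by
  intro a b h
  apply Units.ext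
  exact (algebraMap F E).injective (congrArg Units.val h)

open scoped Classical in
/-- the constant terms -/
noncomputable def Bs (φ : E ≃ₐ[F] E) (n : ℕ) (z : Fˣ) : Finset Eˣ :=
  Finset.univ.filter fun β => inc E z ^ n * Units.map (φ : E →+* E).toMonoidHom β = β

/-- the powers of the twisted conjugation -/
theorem tw_pow (φ : E ≃ₐ[F] E) {n : ℕ} {z : Fˣ} {a b : GL (Fin n) E}
    (h : a * fr φ n b * a⁻¹ = (scal n (inc E z))⁻¹ * b) (k : ℕ) :
    ∃ N : GL (Fin n) E, N * (fr φ n)^[k] b * N⁻¹ = ((scal n (inc E z))⁻¹) ^ k * b := by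
  induction k with
  | zero => exact ⟨1, by simp⟩
  | succ k ih =>
    obtain ⟨N, hN⟩ := ih
    refine ⟨a * fr φ n N, ?_⟩
    rw [Function.iterate_succ_apply']
    have h1 : a * fr φ n N * fr φ n ((fr φ n)^[k] b) * (a * fr φ n N)⁻¹ =
        a * fr φ n (N * (fr φ n)^[k] b * N⁻¹) * a⁻¹ := by
      rw [map_mul, map_mul, map_inv]
      group
    have h2 : fr φ n (((scal n (inc E z))⁻¹) ^ k) = ((scal n (inc E z))⁻¹) ^ k := by
      rw [map_pow, map_inv, fr_scal, map_inc]
    have h3 : ∀ g : GL (Fin n) E, ((scal n (inc E z))⁻¹) ^ k * g =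
        g * ((scal n (inc E z))⁻¹) ^ k := by
      intro g
      have h4 : Commute (scal n (inc E z)) g := D1.scal_comm _ _
      exact (h4.inv_left.pow_left k)
    rw [h1, hN, map_mul, h2]
    calc a * ((scal n (inc E z))⁻¹ ^ k * fr φ n b) * a⁻¹
        = a * (fr φ n b * (scal n (inc E z))⁻¹ ^ k) * a⁻¹ := by rw [h3]
      _ = a * fr φ n b * ((scal n (inc E z))⁻¹ ^ k * a⁻¹) := by group
      _ = a * fr φ n b * (a⁻¹ * (scal n (inc E z))⁻¹ ^ k) := by rw [h3]
      _ = (a * fr φ n b * a⁻¹) * (scal n (inc E z))⁻¹ ^ k := by group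
      _ = (scal n (inc E z))⁻¹ * (b * (scal n (inc E z))⁻¹ ^ k) := by rw [h, mul_assoc]
      _ = (scal n (inc E z))⁻¹ ^ (k + 1) * b := by rw [← h3 b, ← mul_assoc, ← pow_succ']

/-- an element twisted conjugate to its multiple is conjugate to a companion matrix -/
theorem tw_conj (φ : E ≃ₐ[F] E) {n : ℕ} (hn : 1 ≤ n) {z : Fˣ} (hφ : orderOf φ = finrank F E)
    (hz : orderOf z = n * finrank F E) {a b : GL (Fin n) E}
    (h : a * fr φ n b * a⁻¹ = (scal n (inc E z))⁻¹ * b) :
    ∃ β ∈ Bs φ n z, ∃ P : GL (Fin n) E, P * H510.cmU hn β * P⁻¹ = b := by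
  haveI : FiniteDimensional F E := Module.Finite.of_finite
  have hδ : 0 < finrank F E := finrank_pos
  obtain ⟨N, hN⟩ := tw_pow φ h (finrank F E)
  have h1 : (fr φ n)^[finrank F E] b = b := by
    rw [fr_iter, ← hφ, pow_orderOf_eq_one]
    apply Units.ext
    ext i j
    rfl
  rw [h1] at hN
  -- the root of unity
  let ζ : Eˣ := (inc E z)⁻¹ ^ finrank F E
  have hζ : orderOf ζ = n := by
    have h2 : orderOf (inc E z)⁻¹ = n * finrank F E := by
      rw [orderOf_inv, orderOf_injective _ inc_inj, hz]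
    have h3 := orderOf_pow_of_dvd hδ.ne' (x := (inc E z)⁻¹) (n := finrank F E)
      (by rw [h2]; exact Dvd.intro_left _ rfl)
    rw [h2, Nat.mul_div_cancel _ hδ] at h3
    exact h3
  have hprim : IsPrimitiveRoot (ζ : E) n := by
    have h2 : IsPrimitiveRoot ζ n := by
      rw [← hζ]
      exact IsPrimitiveRoot.orderOf ζ
    exact IsPrimitiveRoot.coe_units_iff.mpr h2
  have hsc : ((scal n (inc E z))⁻¹) ^ finrank F E = (scal n ζ : GL (Fin n) E) := by
    have h2 : ((scal n (inc E z))⁻¹ : GL (Fin n) E) = scal n (inc E z)⁻¹ := by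
      unfold scal
      rw [map_inv]
    rw [h2]
    unfold scal
    rw [← map_pow]
  have hNb : N * b = scal n ζ * (b * N) := by
    rw [← hsc, ← mul_assoc, ← hN]
    group
  have hNbm : N.val * b.val = (ζ : E) • (b.val * N.val) := by
    have h2 := congrArg Units.val hNb
    rw [Units.val_mul, Units.val_mul, Units.val_mul] at h2
    rw [h2, D1.scal_val, smul_mul_assoc, one_mul]
  obtain ⟨β, P, hP, hPb⟩ := H510.exists_conj hn hprim (A := N.val) (A' := N⁻¹.val) (B := b.val)
    (by rw [← Units.val_mul, mul_inv_cancel, Units.val_one])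
    (by rw [← Units.val_mul, inv_mul_cancel, Units.val_one]) hNbm b.isUnit
  have hβ : β ≠ 0 := by
    rw [← H510.cm_unit_iff hn]
    have h2 : IsUnit (P * H510.cm n β) := by
      rw [hPb]
      exact b.isUnit.mul hP
    exact (IsUnit.mul_left_iff hP).mp h2
  set β₀ : Eˣ := Units.mk0 β hβ with hβ₀
  set P₀ : GL (Fin n) E := hP.unit with hP₀
  have h2 : P₀ * H510.cmU hn β₀ * P₀⁻¹ = b := by
    have h3 : P₀ * H510.cmU hn β₀ = b * P₀ := by
      apply Units.ext
      rw [Units.val_mul, Units.val_mul]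
      exact hPb
    rw [h3, mul_inv_cancel_right]
  refine ⟨β₀, ?_, P₀, h2⟩
  -- the equation for the constant term
  have h3 : b ^ n = scal n β₀ := by
    rw [← h2, conj_pow, H510.cmU_pow, ← H510.scal_comm, mul_inv_cancel_right]
  have h4 : (a * fr φ n b * a⁻¹) ^ n = ((scal n (inc E z))⁻¹ * b) ^ n := by rw [h]
  have h5 : Commute ((scal n (inc E z))⁻¹ : GL (Fin n) E) b :=
    (show Commute (scal n (inc E z)) b from D1.scal_comm _ _).inv_left
  rw [conj_pow, ← map_pow, h3, fr_scal, ← H510.scal_comm, mul_inv_cancel_right, h5.mul_pow, h3]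
    at h4
  have h6 : (((scal n (inc E z))⁻¹) ^ n * scal n β₀ : GL (Fin n) E) =
      scal n ((inc E z)⁻¹ ^ n * β₀) := by
    unfold scal
    rw [map_mul, map_pow, map_inv]
  rw [h6] at h4
  have h7 := H510.scal_inj hn h4
  unfold Bs
  rw [Finset.mem_filter]
  refine ⟨Finset.mem_univ _, ?_⟩
  rw [h7, ← mul_assoc, ← mul_pow, mul_inv_cancel, one_pow, one_mul]

/-- the converse -/
theorem conj_tw (φ : E ≃ₐ[F] E) {n : ℕ} (hn : 1 ≤ n) {z : Fˣ} {β : Eˣ} (hβ : β ∈ Bs φ n z) :
    H510.dg n (inc E z) * H510.cmU hn β =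
      scal n (inc E z) * (fr φ n (H510.cmU hn β) * H510.dg n (inc E z)) := by
  unfold Bs at hβ
  rw [Finset.mem_filter] at hβ
  rw [fr_cmU]
  apply Units.ext
  rw [Units.val_mul, Units.val_mul, Units.val_mul, D1.scal_val, smul_mul_assoc, one_mul]
  refine cm_stable' ?_
  have h1 := congrArg Units.val hβ.2
  rw [Units.val_mul, Units.val_pow_eq_pow_val] at h1
  exact h1

/-- the number of the twisted conjugators -/
theorem count_tw (φ : E ≃ₐ[F] E) {n : ℕ} (hn : 1 ≤ n) {z : Fˣ} (hφ : orderOf φ = finrank F E)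
    (hz : orderOf z = n * finrank F E) (b : GL (Fin n) E) :
    (∑ a : GL (Fin n) E, if a * fr φ n b * a⁻¹ * b⁻¹ = (scal n (inc E z))⁻¹ then (1 : ℂ) else 0)
      = ∑ β ∈ Bs φ n z, ∑ P : GL (Fin n) E,
        if P * H510.cmU hn β * P⁻¹ = b then (1 : ℂ) else 0 := by
  classical
  by_cases hex : ∃ a₀ : GL (Fin n) E, a₀ * fr φ n b * a₀⁻¹ * b⁻¹ = (scal n (inc E z))⁻¹
  · obtain ⟨a₀, ha₀⟩ := hex
    have hab : a₀ * fr φ n b * a₀⁻¹ = (scal n (inc E z))⁻¹ * b := by
      rw [← ha₀]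
      group
    obtain ⟨β₀, hβ₀, P₀, h1⟩ := tw_conj φ hn hφ hz hab
    have hpow : ∀ (β : Eˣ) (P : GL (Fin n) E), P * H510.cmU hn β * P⁻¹ = b →
        b ^ n = scal n β := by
      intro β P h
      rw [← h, conj_pow, H510.cmU_pow, ← H510.scal_comm, mul_inv_cancel_right]
    rw [Finset.sum_eq_single β₀]
    · rw [← Equiv.sum_comp ((Equiv.mulRight (a₀⁻¹ * P₀)))
        (fun P : GL (Fin n) E => if P * H510.cmU hn β₀ * P⁻¹ = b then (1 : ℂ) else 0)]
      refine Finset.sum_congr rfl fun a _ => ?_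
      have e0 : fr φ n b = a₀⁻¹ * ((scal n (inc E z))⁻¹ * b) * a₀ := by
        rw [← hab]
        group
      have e1 : a * (a₀⁻¹ * P₀) * H510.cmU hn β₀ * (a * (a₀⁻¹ * P₀))⁻¹ =
          a * a₀⁻¹ * b * (a * a₀⁻¹)⁻¹ := by
        rw [← h1]
        group
      have hc : ∀ g : GL (Fin n) E, g * (scal n (inc E z))⁻¹ = (scal n (inc E z))⁻¹ * g := by
        intro g
        exact ((show Commute (scal n (inc E z)) g from D1.scal_comm _ _).inv_left).eq.symm
      have e2 : a * fr φ n b * a⁻¹ = (scal n (inc E z))⁻¹ * (a * a₀⁻¹ * b * (a * a₀⁻¹)⁻¹) := by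
        rw [e0]
        calc a * (a₀⁻¹ * ((scal n (inc E z))⁻¹ * b) * a₀) * a⁻¹
            = ((a * a₀⁻¹) * (scal n (inc E z))⁻¹) * b * (a * a₀⁻¹)⁻¹ := by group
          _ = (scal n (inc E z))⁻¹ * (a * a₀⁻¹ * b * (a * a₀⁻¹)⁻¹) := by
            rw [hc]
            group
      have h2 : a * fr φ n b * a⁻¹ * b⁻¹ = (scal n (inc E z))⁻¹ ↔
          a * (a₀⁻¹ * P₀) * H510.cmU hn β₀ * (a * (a₀⁻¹ * P₀))⁻¹ = b := by
        rw [e1, e2]
        constructor
        · intro h
          have h3 : (scal n (inc E z))⁻¹ * (a * a₀⁻¹ * b * (a * a₀⁻¹)⁻¹) =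
              (scal n (inc E z))⁻¹ * b := by
            rw [← mul_inv_eq_iff_eq_mul]
            exact h
          exact mul_left_cancel h3
        · intro h
          rw [h, mul_inv_cancel_right]
      show (if a * fr φ n b * a⁻¹ * b⁻¹ = (scal n (inc E z))⁻¹ then (1 : ℂ) else 0) =
        if a * (a₀⁻¹ * P₀) * H510.cmU hn β₀ * (a * (a₀⁻¹ * P₀))⁻¹ = b then (1 : ℂ) else 0
      simp only [h2]
    · intro β _ hβne
      refine Finset.sum_eq_zero fun P _ => if_neg fun h => hβne ?_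
      exact H510.scal_inj hn ((hpow β P h).symm.trans (hpow β₀ P₀ h1))
    · intro h
      exact absurd hβ₀ h
  · push Not at hex
    rw [Finset.sum_eq_zero fun a _ => if_neg (hex a)]
    symm
    refine Finset.sum_eq_zero fun β hβ => Finset.sum_eq_zero fun P _ => if_neg fun h => ?_
    have h1 := conj_tw φ hn hβ
    apply hex (P * (H510.dg n (inc E z))⁻¹ * (fr φ n P)⁻¹)
    rw [← h, map_mul, map_mul, map_inv]
    have h2 : fr φ n (H510.cmU hn β) = (scal n (inc E z))⁻¹ *
        (H510.dg n (inc E z) * H510.cmU hn β * (H510.dg n (inc E z))⁻¹) := by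
      rw [h1]
      group
    have hc : ∀ g : GL (Fin n) E, g * (scal n (inc E z))⁻¹ = (scal n (inc E z))⁻¹ * g := by
      intro g
      exact ((show Commute (scal n (inc E z)) g from D1.scal_comm _ _).inv_left).eq.symm
    rw [h2]
    generalize fr φ n P = Q
    generalize H510.dg n (inc E z) = D
    generalize H510.cmU hn β = C
    calc P * D⁻¹ * Q⁻¹ * (Q * ((scal n (inc E z))⁻¹ * (D * C * D⁻¹)) * Q⁻¹) *
          (P * D⁻¹ * Q⁻¹)⁻¹ * (P * C * P⁻¹)⁻¹
        = (P * D⁻¹ * (scal n (inc E z))⁻¹) * D * P⁻¹ := by group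
      _ = (scal n (inc E z))⁻¹ := by
        rw [hc]
        group

end Vale.Agent.P275.H93
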