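import Mathlib

/-!
Complete homogeneous polynomials in `n` variables and alternants (the identity behind the formula of
Jacobi and Trudi).
-/

namespace Vale.Agent.P275.H93

open Finset MvPolynomial

variable {k : Type*} [CommRing k] {n : ℕ}

/-- the coefficient of `Y ^ γ`, zero if some exponent is negative -/
noncomputable def cf (γ : Fin n → ℤ) (f : MvPolynomial (Fin n) k) : k :=
  if ∀ i, 0 ≤ γ i then
    MvPolynomial.coeff (Finsupp.equivFunOnFinite.symm fun i => (γ i).toNat) f else 0

theorem cf_add (γ : Fin n → ℤ) (f g : MvPolynomial (Fin n) k) :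
    cf γ (f + g) = cf γ f + cf γ g := by
  unfold cf
  split
  · rw [MvPolynomial.coeff_add]
  · rw [add_zero]

theorem cf_zero (γ : Fin n → ℤ) : cf γ (0 : MvPolynomial (Fin n) k) = 0 := by
  unfold cf
  split
  · rw [MvPolynomial.coeff_zero]
  · rfl

/-- `cf` as a homomorphism -/
noncomputable def cfHom (γ : Fin n → ℤ) : MvPolynomial (Fin n) k →+ k where
  toFun := cf γ
  map_zero' := cf_zero γ
  map_add' := cf_add γ

theorem cf_sum {ι : Type*} (s : Finset ι) (γ : Fin n → ℤ) (f : ι → MvPolynomial (Fin n) k) :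
    cf γ (∑ i ∈ s, f i) = ∑ i ∈ s, cf γ (f i) := map_sum (cfHom γ) f s

theorem cf_monomial_mul (γ : Fin n → ℤ) (l : Fin n →₀ ℕ) (f : MvPolynomial (Fin n) k) :
    cf γ (MvPolynomial.monomial l 1 * f) = cf (fun i => γ i - l i) f := by
  unfold cf
  by_cases h : ∀ i, 0 ≤ γ i
  · rw [if_pos h, MvPolynomial.coeff_monomial_mul']
    by_cases h2 : ∀ i, 0 ≤ γ i - (l i : ℤ)
    · rw [if_pos h2, if_pos, one_mul]
      · congr 1
        ext i
        simp only [Finsupp.coe_tsub, Pi.sub_apply, Finsupp.equivFunOnFinite_symm_apply_apply]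
        have := h2 i
        have := h i
        omega
      · intro i
        simp only [Finsupp.equivFunOnFinite_symm_apply_apply]
        have := h2 i
        omega
    · rw [if_neg h2, if_neg]
      intro h3
      apply h2
      intro i
      have h4 := h3 i
      simp only [Finsupp.equivFunOnFinite_symm_apply_apply] at h4
      have := h i
      omega
  · rw [if_neg h, if_neg]
    intro h2
    apply h
    intro i
    have h3 : 0 ≤ γ i - (l i : ℤ) := h2 i
    omega

/-- the geometric series -/
noncomputable def geo (y : MvPolynomial (Fin n) k) : PowerSeries (MvPolynomial (Fin n) k) :=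
  PowerSeries.mk fun m => y ^ m

theorem geo_mul (y : MvPolynomial (Fin n) k) :
    (1 - PowerSeries.C y * PowerSeries.X) * geo y = 1 := by
  ext m
  rw [sub_mul, one_mul, map_sub]
  cases m with
  | zero =>
    simp [geo]
  | succ m =>
    rw [mul_assoc, PowerSeries.coeff_C_mul, mul_comm PowerSeries.X, PowerSeries.coeff_succ_mul_X]
    unfold geo
    rw [PowerSeries.coeff_mk, PowerSeries.coeff_mk, PowerSeries.coeff_one, if_neg (by omega),
      pow_succ', sub_self]

/-- the generating series of the complete homogeneous polynomials -/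
noncomputable def Hs : PowerSeries (MvPolynomial (Fin n) k) := ∏ i, geo (X i)

/-- the complete homogeneous polynomials, with integer index -/
noncomputable def Hz (m : ℤ) : MvPolynomial (Fin n) k :=
  if 0 ≤ m then PowerSeries.coeff m.toNat Hs else 0

theorem coeff_Hs (m : ℕ) : PowerSeries.coeff m (Hs : PowerSeries (MvPolynomial (Fin n) k)) =
    ∑ l ∈ finsuppAntidiag univ m, MvPolynomial.monomial l 1 := by
  unfold Hs
  rw [PowerSeries.coeff_prod]
  refine Finset.sum_congr rfl fun l _ => ?_
  unfold geo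
  simp_rw [PowerSeries.coeff_mk]
  rw [MvPolynomial.monomial_eq, map_one, one_mul, Finsupp.prod_fintype _ _ (fun i => pow_zero _)]

theorem Hz_natCast (m : ℕ) : (Hz (m : ℤ) : MvPolynomial (Fin n) k) =
    ∑ l ∈ finsuppAntidiag univ m, MvPolynomial.monomial l 1 := by
  unfold Hz
  rw [if_pos (Int.natCast_nonneg m), Int.toNat_natCast, coeff_Hs]

theorem Hz_neg {m : ℤ} (hm : m < 0) : (Hz m : MvPolynomial (Fin n) k) = 0 := by
  unfold Hz
  rw [if_neg (by omega)]

theorem Hz_zero : (Hz 0 : MvPolynomial (Fin n) k) = 1 := by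
  unfold Hz
  rw [if_pos le_rfl, Int.toNat_zero, PowerSeries.coeff_zero_eq_constantCoeff_apply]
  unfold Hs
  rw [map_prod]
  refine Finset.prod_eq_one fun i _ => ?_
  rw [← PowerSeries.coeff_zero_eq_constantCoeff_apply]
  unfold geo
  rw [PowerSeries.coeff_mk, pow_zero]

/-- the product over the other variables -/
noncomputable def El (l : Fin n) : Polynomial (MvPolynomial (Fin n) k) :=
  ∏ i ∈ univ.erase l, (1 - Polynomial.C (X i) * Polynomial.X)

theorem El_natDegree (l : Fin n) : (El l : Polynomial (MvPolynomial (Fin n) k)).natDegree ≤ n - 1 := by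
  unfold El
  refine (Polynomial.natDegree_prod_le _ _).trans ?_
  have h1 : ∀ i ∈ univ.erase l,
      (1 - Polynomial.C (X i : MvPolynomial (Fin n) k) * Polynomial.X).natDegree ≤ 1 := by
    intro i _
    refine (Polynomial.natDegree_sub_le _ _).trans ?_
    rw [Polynomial.natDegree_one]
    exact max_le (by omega) ((Polynomial.natDegree_C_mul_le _ _).trans Polynomial.natDegree_X_le)
  refine (Finset.sum_le_sum h1).trans ?_
  rw [Finset.sum_const, Finset.card_erase_of_mem (Finset.mem_univ l), Finset.card_univ,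
    Fintype.card_fin, smul_eq_mul, mul_one]

theorem El_mul (l : Fin n) :
    ((El l : Polynomial (MvPolynomial (Fin n) k)) : PowerSeries (MvPolynomial (Fin n) k)) * Hs =
      geo (X l) := by
  unfold El Hs
  rw [← Finset.mul_prod_erase univ _ (Finset.mem_univ l), mul_left_comm]
  have h1 : ((∏ i ∈ univ.erase l, (1 - Polynomial.C (X i) * Polynomial.X) :
      Polynomial (MvPolynomial (Fin n) k)) : PowerSeries (MvPolynomial (Fin n) k)) =
      ∏ i ∈ univ.erase l, (1 - PowerSeries.C (X i) * PowerSeries.X) := by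
    rw [← Polynomial.coeToPowerSeries.ringHom_apply, map_prod]
    refine Finset.prod_congr rfl fun i _ => ?_
    rw [Polynomial.coeToPowerSeries.ringHom_apply]
    simp
  rw [h1, ← Finset.prod_mul_distrib, Finset.prod_congr rfl (fun i _ => geo_mul (X i)),
    Finset.prod_const_one, mul_one]

/-- the basic identity -/
theorem sum_El (l : Fin n) (a : ℤ) (ha : -(n : ℤ) < a) :
    ∑ j : Fin n, (El l).coeff (n - 1 - j) * (Hz (a + j) : MvPolynomial (Fin n) k) =
      X l ^ (a + n - 1).toNat := by
  have hn : 0 < n := Nat.pos_of_ne_zero (by rintro rfl; exact l.elim0)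
  obtain ⟨N, hN⟩ : ∃ N : ℕ, a + n - 1 = N := ⟨(a + n - 1).toNat, by omega⟩
  rw [hN, Int.toNat_natCast]
  have h1 : PowerSeries.coeff N (((El l : Polynomial (MvPolynomial (Fin n) k)) :
      PowerSeries (MvPolynomial (Fin n) k)) * Hs) = X l ^ N := by
    rw [El_mul]
    unfold geo
    rw [PowerSeries.coeff_mk]
  rw [← h1, PowerSeries.coeff_mul, Finset.Nat.sum_antidiagonal_eq_sum_range_succ_mk]
  -- both sides are sums over the first index
  rw [← Equiv.sum_comp Fin.revPerm]
  have h2 : ∀ j : Fin n, (El l).coeff (n - 1 - (Fin.revPerm j : Fin n)) *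
      (Hz (a + (Fin.revPerm j : Fin n)) : MvPolynomial (Fin n) k) =
      (fun p : ℕ => (El l).coeff p * (Hz ((N : ℤ) - p) : MvPolynomial (Fin n) k)) j := by
    intro j
    have h3 : ((Fin.revPerm j : Fin n) : ℕ) = n - (j + 1) := by
      rw [Fin.revPerm_apply, Fin.val_rev]
    have h4 : n - 1 - (n - ((j : ℕ) + 1)) = j := by have := j.2; omega
    have h5 : a + ((n - ((j : ℕ) + 1) : ℕ) : ℤ) = N - j := by have := j.2; omega
    simp only
    rw [h3, h4, h5]
  rw [Finset.sum_congr rfl (fun j _ => h2 j),
    Fin.sum_univ_eq_sum_range (fun p : ℕ => (El l).coeff p *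
      (Hz ((N : ℤ) - p) : MvPolynomial (Fin n) k)) n]
  have h6 : ∀ p ∈ range N.succ, PowerSeries.coeff (p, N - p).1
      ((El l : Polynomial (MvPolynomial (Fin n) k)) : PowerSeries (MvPolynomial (Fin n) k)) *
      PowerSeries.coeff (p, N - p).2 Hs = (El l).coeff p * Hz ((N : ℤ) - p) := by
    intro p hp
    rw [Finset.mem_range] at hp
    simp only
    rw [Polynomial.coeff_coe]
    have h7 : (N : ℤ) - p = ((N - p : ℕ) : ℤ) := by omega
    rw [h7]
    unfold Hz
    rw [if_pos (Int.natCast_nonneg _), Int.toNat_natCast]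
  rw [Finset.sum_congr rfl h6]
  -- extend both ranges
  have h8 : ∑ p ∈ range n, (El l).coeff p * (Hz ((N : ℤ) - p) : MvPolynomial (Fin n) k) =
      ∑ p ∈ range (max n N.succ), (El l).coeff p * (Hz ((N : ℤ) - p)) := by
    refine Finset.sum_subset (Finset.range_subset_range.2 (le_max_left _ _)) fun p _ hp => ?_
    rw [Finset.mem_range, not_lt] at hp
    rw [Polynomial.coeff_eq_zero_of_natDegree_lt, zero_mul]
    have := El_natDegree (k := k) l
    omega
  have h9 : ∑ p ∈ range N.succ, (El l).coeff p * (Hz ((N : ℤ) - p) : MvPolynomial (Fin n) k) =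
      ∑ p ∈ range (max n N.succ), (El l).coeff p * (Hz ((N : ℤ) - p)) := by
    refine Finset.sum_subset (Finset.range_subset_range.2 (le_max_right _ _)) fun p _ hp => ?_
    rw [Finset.mem_range, not_lt] at hp
    rw [Hz_neg (by omega), mul_zero]
  rw [h8, h9]

/-- the matrix of complete homogeneous polynomials -/
noncomputable def HM (a : Fin n → ℤ) : Matrix (Fin n) (Fin n) (MvPolynomial (Fin n) k) :=
  Matrix.of fun j i => Hz (a i + j)

/-- the auxiliary matrix -/
noncomputable def EM : Matrix (Fin n) (Fin n) (MvPolynomial (Fin n) k) :=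
  Matrix.of fun l j => (El l).coeff (n - 1 - j)

/-- the alternant -/
noncomputable def YM (a : Fin n → ℤ) : Matrix (Fin n) (Fin n) (MvPolynomial (Fin n) k) :=
  Matrix.of fun l i => X l ^ (a i + n - 1).toNat

theorem EM_mul_HM (a : Fin n → ℤ) (ha : ∀ i, -(n : ℤ) < a i) :
    (EM : Matrix (Fin n) (Fin n) (MvPolynomial (Fin n) k)) * HM a = YM a := by
  ext1 l i
  rw [Matrix.mul_apply]
  exact sum_El l (a i) (ha i)

theorem det_EM : (EM : Matrix (Fin n) (Fin n) (MvPolynomial (Fin n) k)).det =
    (YM (fun i => -(i : ℤ))).det := by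
  rw [← EM_mul_HM (fun i => -(i : ℤ)) (fun i => by have := i.2; omega), Matrix.det_mul]
  have h1 : (HM (fun i : Fin n => -(i : ℤ)) :
      Matrix (Fin n) (Fin n) (MvPolynomial (Fin n) k)).det = 1 := by
    rw [Matrix.det_of_isLowerTriangular]
    · refine Finset.prod_eq_one fun i _ => ?_
      unfold HM
      rw [Matrix.of_apply, neg_add_cancel, Hz_zero]
    · intro j i hij
      unfold HM
      rw [Matrix.of_apply, Hz_neg]
      have h2 : (j : ℕ) < i := hij
      change -(i : ℤ) + (j : ℤ) < 0
      omega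
  rw [h1, mul_one]

/-- coefficients of an alternant -/
theorem cf_det_YM (a : Fin n → ℤ) (ha : ∀ i, -(n : ℤ) < a i) (b : Fin n → ℤ) :
    cf (fun i => b i + n - 1) (YM a : Matrix (Fin n) (Fin n) (MvPolynomial (Fin n) k)).det =
      (Matrix.of fun l i => if b l = a i then (1 : k) else 0).det := by
  rw [Matrix.det_apply, Matrix.det_apply, cf_sum]
  refine Finset.sum_congr rfl fun σ _ => ?_
  have h1 : cf (fun i => b i + n - 1) (Equiv.Perm.sign σ •
      ∏ i, (YM a : Matrix (Fin n) (Fin n) (MvPolynomial (Fin n) k)) (σ i) i) =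
      Equiv.Perm.sign σ • cf (fun i => b i + n - 1)
        (∏ i, (YM a : Matrix (Fin n) (Fin n) (MvPolynomial (Fin n) k)) (σ i) i) := by
    rw [Units.smul_def, Units.smul_def]
    exact map_zsmul (cfHom (fun i => b i + n - 1)) _ _
  rw [h1]
  congr 1
  have h2 : ∏ i, (YM a : Matrix (Fin n) (Fin n) (MvPolynomial (Fin n) k)) (σ i) i =
      MvPolynomial.monomial (Finsupp.equivFunOnFinite.symm fun l =>
        (a (σ.symm l) + n - 1).toNat) 1 := by
    rw [MvPolynomial.monomial_eq, map_one, one_mul, Finsupp.prod_fintype _ _ (fun i => pow_zero _)]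
    refine Eq.trans ?_ (Equiv.prod_comp σ _)
    refine Finset.prod_congr rfl fun i _ => ?_
    unfold YM
    rw [Matrix.of_apply, Finsupp.equivFunOnFinite_symm_apply_apply, Equiv.symm_apply_apply]
  rw [h2]
  unfold cf
  by_cases h3 : ∀ i, b (σ i) = a i
  · rw [if_pos, MvPolynomial.coeff_monomial, if_pos, Finset.prod_eq_one]
    · intro i _
      rw [Matrix.of_apply, if_pos (h3 i)]
    · ext l
      simp only [Finsupp.equivFunOnFinite_symm_apply_apply]
      have h4 := h3 (σ.symm l)
      rw [Equiv.apply_symm_apply] at h4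
      rw [h4]
    · intro l
      have h4 := h3 (σ.symm l)
      rw [Equiv.apply_symm_apply] at h4
      have := ha (σ.symm l)
      change 0 ≤ b l + n - 1
      omega
  · push Not at h3
    obtain ⟨i, hi⟩ := h3
    have h4 : ∏ i, (Matrix.of fun l i => if b l = a i then (1 : k) else 0) (σ i) i = 0 := by
      apply Finset.prod_eq_zero (Finset.mem_univ i)
      rw [Matrix.of_apply, if_neg hi]
    rw [h4]
    split
    · rename_i h5
      rw [MvPolynomial.coeff_monomial, if_neg]
      intro h6
      have h7 := DFunLike.congr_fun h6 (σ i)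
      simp only [Finsupp.equivFunOnFinite_symm_apply_apply, Equiv.symm_apply_apply] at h7
      apply hi
      have h8 : 0 ≤ b (σ i) + n - 1 := h5 (σ i)
      have := ha i
      omega
    · rfl

end Vale.Agent.P275.H93
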