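import Vale.Agent.P275.H93.JT

/-!
Orthonormality of the determinants of Jacobi and Trudi in an abstract self-adjoint ring.
-/

namespace Vale.Agent.P275.H93

open Finset

/-- A commutative ring with a form, elements `h m` and the adjoints `D m` of the multiplications
with `h m`. -/
structure Adj (R k : Type*) [CommRing R] [CommRing k] where
  /-- the form -/
  B : R →+ R →+ k
  /-- the elements -/
  h : ℤ → R
  /-- the adjoint operators -/
  D : ℕ → R →+ R
  h0 : h 0 = 1
  hneg : ∀ m < 0, h m = 0
  D0 : D 0 = AddMonoidHom.id R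
  Dh : ∀ (k : ℕ) (m : ℤ), D k (h m) = h (m - k)
  Dmul : ∀ (k : ℕ) (a b : R), D k (a * b) = ∑ p ∈ antidiagonal k, D p.1 a * D p.2 b
  adj : ∀ (m : ℕ) (a b : R), B (h m * a) b = B a (D m b)
  symm : ∀ a b : R, B a b = B b a
  B1 : B 1 1 = 1

namespace Adj

variable {R k : Type*} [CommRing R] [CommRing k] (A : Adj R k) {n : ℕ}

/-- all adjoint operators together, a ring homomorphism -/
noncomputable def Dt : R →+* PowerSeries R where
  toFun a := PowerSeries.mk fun j => A.D j a
  map_one' := by
    ext j
    rw [PowerSeries.coeff_mk, PowerSeries.coeff_one, ← A.h0, A.Dh]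
    by_cases hj : j = 0
    · subst hj
      simp
    · rw [if_neg hj, A.hneg]
      omega
  map_zero' := by
    ext j
    rw [PowerSeries.coeff_mk, map_zero, map_zero]
  map_mul' a b := by
    ext j
    rw [PowerSeries.coeff_mk, A.Dmul, PowerSeries.coeff_mul]
    simp_rw [PowerSeries.coeff_mk]
  map_add' a b := by
    ext j
    rw [PowerSeries.coeff_mk, map_add, map_add, PowerSeries.coeff_mk, PowerSeries.coeff_mk]

theorem coeff_Dt (j : ℕ) (a : R) : PowerSeries.coeff j (A.Dt a) = A.D j a := by
  change PowerSeries.coeff j (PowerSeries.mk fun j => A.D j a) = _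
  rw [PowerSeries.coeff_mk]

theorem D_prod {ι : Type*} [DecidableEq ι] (s : Finset ι) (f : ι → R) (j : ℕ) :
    A.D j (∏ i ∈ s, f i) = ∑ l ∈ finsuppAntidiag s j, ∏ i ∈ s, A.D (l i) (f i) := by
  rw [← A.coeff_Dt, map_prod, PowerSeries.coeff_prod]
  simp_rw [A.coeff_Dt]

theorem D_one (j : ℕ) (hj : j ≠ 0) : A.D j 1 = 0 := by
  rw [← A.h0, A.Dh, A.hneg]
  omega

/-- the determinant of Jacobi and Trudi; a partition `λ` (with indices from `0`) corresponds to
`a i = λ i - i` -/
noncomputable def S (a : Fin n → ℤ) : R := (Matrix.of fun j i : Fin n => A.h (a i + j)).det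

theorem S_eq (a : Fin n → ℤ) :
    A.S a = ∑ σ : Equiv.Perm (Fin n), Equiv.Perm.sign σ • ∏ i, A.h (a i + σ i) := by
  unfold S
  rw [Matrix.det_apply]
  rfl

theorem D_S (j : ℕ) (a : Fin n → ℤ) :
    A.D j (A.S a) = ∑ l ∈ finsuppAntidiag univ j, A.S (fun i => a i - l i) := by
  simp_rw [S_eq]
  rw [map_sum, Finset.sum_comm]
  refine Finset.sum_congr rfl fun σ _ => ?_
  rw [← Finset.smul_sum, Units.smul_def, Units.smul_def, map_zsmul, D_prod]
  refine congrArg _ (Finset.sum_congr rfl fun l _ => Finset.prod_congr rfl fun i _ => ?_)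
  rw [A.Dh]
  congr 1
  ring

/-- the form against `1` -/
theorem B_one_prod {ι : Type*} (s : Finset ι) (m : ι → ℤ) :
    A.B 1 (∏ i ∈ s, A.h (m i)) = ∏ i ∈ s, (if m i = 0 then (1 : k) else 0) := by
  classical
  induction s using Finset.induction_on with
  | empty => simpa using A.B1
  | insert a s ha ih =>
    rw [Finset.prod_insert ha, Finset.prod_insert ha]
    rcases lt_trichotomy (m a) 0 with h | h | h
    · rw [A.hneg _ h, if_neg h.ne, zero_mul, zero_mul, map_zero]
    · rw [h, A.h0, if_pos rfl, one_mul, one_mul, ih]
    · obtain ⟨j, hj⟩ : ∃ j : ℕ, m a = j := ⟨(m a).toNat, by omega⟩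
      rw [if_neg h.ne', zero_mul, A.symm, hj, A.adj, A.D_one j (by omega), map_zero]

theorem B_one_S (b : Fin n → ℤ) :
    A.B 1 (A.S b) = cf (fun i => b i + n - 1)
      (EM : Matrix (Fin n) (Fin n) (MvPolynomial (Fin n) k)).det := by
  rw [det_EM, cf_det_YM _ (fun i => by have := i.2; omega), S_eq, map_sum,
    ← Matrix.det_transpose, Matrix.det_apply]
  refine Finset.sum_congr rfl fun σ _ => ?_
  rw [Units.smul_def, Units.smul_def, map_zsmul, B_one_prod]
  refine congrArg _ (Finset.prod_congr rfl fun i _ => ?_)
  rw [Matrix.transpose_apply, Matrix.of_apply]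
  refine if_congr ?_ rfl rfl
  omega

/-- if some entry is too small, the determinant vanishes -/
theorem S_eq_zero (a : Fin n → ℤ) (i : Fin n) (hi : a i ≤ -(n : ℤ)) : A.S a = 0 := by
  unfold S
  refine Matrix.det_eq_zero_of_column_eq_zero i fun j => ?_
  rw [Matrix.of_apply, A.hneg]
  have := j.2
  omega

/-- the form on monomials and determinants -/
theorem B_prod_S {ι : Type*} (s : Finset ι) (m : ι → ℤ) : ∀ b : Fin n → ℤ,
    A.B (∏ i ∈ s, A.h (m i)) (A.S b) = cf (fun i => b i + n - 1)
      ((∏ i ∈ s, Hz (m i)) * (EM : Matrix (Fin n) (Fin n) (MvPolynomial (Fin n) k)).det) := by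
  classical
  induction s using Finset.induction_on with
  | empty =>
    intro b
    rw [Finset.prod_empty, Finset.prod_empty, one_mul]
    exact A.B_one_S b
  | insert a s ha ih =>
    intro b
    rw [Finset.prod_insert ha, Finset.prod_insert ha]
    by_cases hm : m a < 0
    · rw [A.hneg _ hm, Hz_neg hm, zero_mul, zero_mul, zero_mul, cf_zero, map_zero,
        AddMonoidHom.zero_apply]
    · obtain ⟨j, hj⟩ : ∃ j : ℕ, m a = j := ⟨(m a).toNat, by omega⟩
      rw [hj, A.adj, D_S, map_sum, Hz_natCast, mul_assoc, Finset.sum_mul, cf_sum]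
      refine Finset.sum_congr rfl fun l _ => ?_
      rw [ih, cf_monomial_mul]
      refine congrArg (fun γ => cf γ _) ?_
      funext i
      ring

/-- **Orthogonality of the determinants of Jacobi and Trudi.** -/
theorem ortho (a b : Fin n → ℤ) (ha : ∀ i, -(n : ℤ) < a i) :
    A.B (A.S a) (A.S b) = (Matrix.of fun l i => if b l = a i then (1 : k) else 0).det := by
  rw [← cf_det_YM a ha b, ← EM_mul_HM a ha, Matrix.det_mul, mul_comm, Matrix.det_apply (HM a),
    Finset.sum_mul, cf_sum, S_eq, map_sum, AddMonoidHom.finsetSum_apply]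
  refine Finset.sum_congr rfl fun σ _ => ?_
  rw [Units.smul_def, Units.smul_def, map_zsmul, AddMonoidHom.zsmul_apply, B_prod_S,
    smul_mul_assoc]
  exact (map_zsmul (cfHom (k := k) (fun i => b i + n - 1)) _ _).symm

/-- the determinant of a partition (or of any vector of natural numbers) -/
noncomputable def s (p : Fin n → ℕ) : R := A.S fun i => (p i : ℤ) - i

/-- **Orthonormality for partitions.** -/
theorem ortho_s (p q : Fin n → ℕ) (hp : Antitone p) (hq : Antitone q) :
    A.B (A.s p) (A.s q) = if p = q then 1 else 0 := by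
  unfold s
  rw [ortho]
  · by_cases h : p = q
    · subst h
      rw [if_pos rfl]
      have h1 : (Matrix.of fun l i : Fin n => if ((p l : ℤ) - l) = (p i : ℤ) - i then (1 : k)
          else 0) = 1 := by
        ext l i
        rw [Matrix.of_apply, Matrix.one_apply]
        refine if_congr ?_ rfl rfl
        constructor
        · intro h2
          rcases lt_trichotomy l i with h3 | h3 | h3
          · have h4 := hp h3.le
            have h5 : (l : ℕ) < i := h3
            omega
          · exact h3
          · have h4 := hp h3.le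
            have h5 : (i : ℕ) < l := h3
            omega
        · rintro rfl
          rfl
      rw [h1, Matrix.det_one]
    · rw [if_neg h]
      -- some entry of `q` is missing in `p`
      have hsa : ∀ p : Fin n → ℕ, Antitone p → StrictAnti fun i : Fin n => (p i : ℤ) - i := by
        intro p hp i j hij
        have h4 := hp hij.le
        have h5 : (i : ℕ) < j := hij
        simp only
        omega
      have h2 : ∃ l : Fin n, ∀ i : Fin n, (q l : ℤ) - l ≠ (p i : ℤ) - i := by
        by_contra hcon
        push Not at hcon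
        apply h
        choose f hf using hcon
        have hinj : Function.Injective f := by
          intro l l' hll
          apply (hsa q hq).injective
          change (q l : ℤ) - l = (q l' : ℤ) - l'
          rw [hf l, hf l', hll]
        have hbij : Function.Bijective f := Finite.injective_iff_bijective.1 hinj
        have hmono : StrictMono f := by
          intro l l' hll
          by_contra hcon
          rw [not_lt] at hcon
          have h3 : (q l' : ℤ) - l' < (q l : ℤ) - l := (hsa q hq) hll
          rw [hf l, hf l'] at h3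
          have h4 : (p (f l) : ℤ) - f l ≤ (p (f l') : ℤ) - f l' := (hsa p hp).antitone hcon
          omega
        have hid : f = id := by
          have h5 : StrictMono (id : Fin n → Fin n) := strictMono_id
          have h6 := (StrictMono.range_inj hmono h5).1 (by
            rw [hbij.2.range_eq, Set.range_id])
          exact h6
        funext i
        have h7 := hf i
        rw [hid] at h7
        change (q i : ℤ) - i = (p i : ℤ) - i at h7
        omega
      obtain ⟨l, hl⟩ := h2
      refine Matrix.det_eq_zero_of_row_eq_zero l fun i => ?_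
      rw [Matrix.of_apply, if_neg (hl i)]
  · intro i
    have := i.2
    omega

end Adj

end Vale.Agent.P275.H93
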