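import Vale.Agent.P275.H93.A2

/-!
The hook polynomials at `q⁻¹`: the sum over the partitions of `k` of any function of the hook
polynomial at `q⁻¹`, by means of the complements of the sets of beta numbers.
-/

namespace Vale.Agent.P275.H93

open Finset Vale.Agent.P275.H341

/-- the set of beta numbers -/
def bt {k : ℕ} (lam : Fin k → ℕ) : Finset ℕ := univ.image fun i : Fin k => lam (Fin.rev i) + i

theorem bt_mono {k : ℕ} {lam : Fin k → ℕ} (h : Antitone lam) :
    StrictMono fun i : Fin k => lam (Fin.rev i) + (i : ℕ) := by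
  intro i j hij
  have h1 : lam (Fin.rev i) ≤ lam (Fin.rev j) := h (Fin.rev_le_rev.2 hij.le)
  have h2 : (i : ℕ) < j := hij
  simp only
  omega

/-- the sets of beta numbers of the partitions of `k` -/
def LS (k : ℕ) : Finset (Finset ℕ) :=
  (powersetCard k (range (2 * k))).filter fun L => ∑ l ∈ L, l = k + ∑ i ∈ range k, i

theorem bt_mem {k : ℕ} {lam : Fin k → ℕ} (h : lam ∈ Pt k) : bt lam ∈ LS k := by
  obtain ⟨hs, ha⟩ := mem_Pt.1 h
  have hinj := (bt_mono ha).injective
  unfold LS bt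
  rw [Finset.mem_filter, Finset.mem_powersetCard]
  refine ⟨⟨?_, ?_⟩, ?_⟩
  · intro x hx
    obtain ⟨i, _, rfl⟩ := Finset.mem_image.1 hx
    rw [Finset.mem_range]
    have h1 : lam (Fin.rev i) ≤ ∑ i, lam i :=
      Finset.single_le_sum (fun _ _ => Nat.zero_le _) (Finset.mem_univ _)
    have h2 := i.2
    omega
  · rw [Finset.card_image_of_injective _ hinj, Finset.card_univ, Fintype.card_fin]
  · have h1 : ∑ i : Fin k, lam (Fin.rev i) = ∑ i, lam i := Equiv.sum_comp Fin.revPerm lam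
    rw [Finset.sum_image fun i _ j _ hij => hinj hij, Finset.sum_add_distrib, h1, hs,
      Fin.sum_univ_eq_sum_range (fun i => i)]

theorem bt_inj {k : ℕ} {lam mu : Fin k → ℕ} (h : Antitone lam) (h' : Antitone mu)
    (he : bt lam = bt mu) : lam = mu := by
  have hc : (bt lam).card = k := by
    unfold bt
    rw [Finset.card_image_of_injective _ (bt_mono h).injective, Finset.card_univ, Fintype.card_fin]
  have h1 := Finset.orderEmbOfFin_unique hc
    (fun i => Finset.mem_image_of_mem (fun i : Fin k => lam (Fin.rev i) + (i : ℕ))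
      (Finset.mem_univ i)) (bt_mono h)
  have h2 := Finset.orderEmbOfFin_unique hc (f := fun i : Fin k => mu (Fin.rev i) + (i : ℕ))
    (fun i => by
      rw [he]
      exact Finset.mem_image_of_mem (fun i : Fin k => mu (Fin.rev i) + (i : ℕ))
        (Finset.mem_univ i)) (bt_mono h')
  funext i
  have h3 := congrFun (h1.trans h2.symm) (Fin.rev i)
  simp only [Fin.rev_rev] at h3
  omega

theorem bt_surj {k : ℕ} {L : Finset ℕ} (hL : L ∈ LS k) : ∃ lam ∈ Pt k, bt lam = L := by
  unfold LS at hL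
  rw [Finset.mem_filter, Finset.mem_powersetCard] at hL
  obtain ⟨⟨hL1, hL2⟩, hL3⟩ := hL
  let e := L.orderEmbOfFin hL2
  have he : StrictMono e := e.strictMono
  have h1 : ∀ i j : Fin k, i ≤ j → e i + (j : ℕ) ≤ e j + i := by
    intro i j hij
    obtain ⟨d, hd⟩ := Nat.exists_eq_add_of_le (Fin.le_def.1 hij)
    induction d generalizing j with
    | zero =>
      have h2 : j = i := Fin.ext (by omega)
      rw [h2]
    | succ d ih =>
      have hj := j.2
      have h3 := ih ⟨i + d, by omega⟩ (Fin.le_def.2 (by simp)) rfl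
      have h4 : e ⟨i + d, by omega⟩ < e j := he (Fin.lt_def.2 (by simp; omega))
      simp only at h3
      omega
  have h2 : ∀ i : Fin k, (i : ℕ) ≤ e i := by
    intro i
    have hi := i.2
    have h3 := h1 ⟨0, by omega⟩ i (Fin.le_def.2 (Nat.zero_le _))
    simp only at h3
    omega
  refine ⟨fun i => e (Fin.rev i) - (Fin.rev i : Fin k), mem_Pt.2 ⟨?_, ?_⟩, ?_⟩
  · have h0 : ∑ i : Fin k, (e (Fin.rev i) - (Fin.rev i : ℕ)) = ∑ i : Fin k, (e i - (i : ℕ)) :=
      Equiv.sum_comp Fin.revPerm (fun i : Fin k => e i - (i : ℕ))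
    rw [h0]
    have h3 : ∑ i : Fin k, (e i - (i : ℕ)) + ∑ i : Fin k, (i : ℕ) = ∑ i : Fin k, e i := by
      rw [← Finset.sum_add_distrib]
      exact Finset.sum_congr rfl fun i _ => Nat.sub_add_cancel (h2 i)
    have h4 : ∑ i : Fin k, e i = ∑ l ∈ L, l := by
      rw [← Finset.image_orderEmbOfFin_univ L hL2, Finset.sum_image fun i _ j _ hij =>
        he.injective hij]
    rw [Fin.sum_univ_eq_sum_range (fun i => i)] at h3
    omega
  · intro i j hij
    have h3 := h1 (Fin.rev j) (Fin.rev i) (Fin.rev_le_rev.2 hij)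
    have h4 := h2 (Fin.rev j)
    have h5 := h2 (Fin.rev i)
    simp only
    omega
  · unfold bt
    rw [← Finset.image_orderEmbOfFin_univ L hL2]
    refine Finset.image_congr fun i _ => ?_
    simp only [Fin.rev_rev]
    exact Nat.sub_add_cancel (h2 i)

/-- sums over the partitions and over the sets of beta numbers -/
theorem sum_bt (k : ℕ) (G : Finset ℕ → ℂ) : ∑ lam ∈ Pt k, G (bt lam) = ∑ L ∈ LS k, G L := by
  refine Finset.sum_bij (fun lam _ => bt lam) (fun lam h => bt_mem h) ?_ ?_ fun _ _ => rfl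
  · intro lam h mu h' he
    exact bt_inj (mem_Pt.1 h).2 (mem_Pt.1 h').2 he
  · intro L hL
    obtain ⟨lam, h, h'⟩ := bt_surj hL
    exact ⟨lam, h, h'⟩

/-- the complement -/
def Tc (k : ℕ) (L : Finset ℕ) : Finset ℕ := (range (2 * k)).filter fun x => 2 * k - 1 - x ∉ L

theorem mem_Tc {k : ℕ} {L : Finset ℕ} {x : ℕ} : x ∈ Tc k L ↔ x < 2 * k ∧ 2 * k - 1 - x ∉ L := by
  unfold Tc
  rw [Finset.mem_filter, Finset.mem_range]

theorem Tc_Tc {k : ℕ} {L : Finset ℕ} (hL : L ⊆ range (2 * k)) : Tc k (Tc k L) = L := by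
  ext x
  rw [mem_Tc, mem_Tc]
  constructor
  · rintro ⟨h1, h2⟩
    by_contra h3
    apply h2
    refine ⟨by omega, ?_⟩
    have h4 : 2 * k - 1 - (2 * k - 1 - x) = x := by omega
    rw [h4]
    exact h3
  · intro h
    have h1 := Finset.mem_range.1 (hL h)
    refine ⟨h1, fun h2 => h2.2 ?_⟩
    have h4 : 2 * k - 1 - (2 * k - 1 - x) = x := by omega
    rw [h4]
    exact h

theorem sum_Tc {M : Type*} [AddCommMonoid M] (k : ℕ) {L : Finset ℕ} (hL : L ⊆ range (2 * k))
    (f : ℕ → M) : ∑ x ∈ Tc k L, f x + ∑ x ∈ L, f (2 * k - 1 - x) = ∑ x ∈ range (2 * k), f x := by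
  have h1 : ∑ x ∈ L, f (2 * k - 1 - x) =
      ∑ x ∈ (range (2 * k)).filter (fun x => ¬ (2 * k - 1 - x ∉ L)), f x := by
    refine Finset.sum_nbij' (fun x => 2 * k - 1 - x) (fun x => 2 * k - 1 - x) ?_ ?_ ?_ ?_ ?_
    · intro x hx
      have h2 := Finset.mem_range.1 (hL hx)
      rw [Finset.mem_filter, Finset.mem_range, not_not]
      refine ⟨by omega, ?_⟩
      have h4 : 2 * k - 1 - (2 * k - 1 - x) = x := by omega
      rw [h4]
      exact hx
    · intro x hx
      rw [Finset.mem_filter, not_not] at hx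
      exact hx.2
    · intro x hx
      have h2 := Finset.mem_range.1 (hL hx)
      omega
    · intro x hx
      rw [Finset.mem_filter, Finset.mem_range] at hx
      omega
    · intro x _
      rfl
  rw [h1]
  exact Finset.sum_filter_add_sum_filter_not _ _ _

theorem Tc_mem {k : ℕ} {L : Finset ℕ} (hL : L ∈ LS k) : Tc k L ∈ LS k := by
  unfold LS at hL ⊢
  rw [Finset.mem_filter, Finset.mem_powersetCard] at hL ⊢
  obtain ⟨⟨hL1, hL2⟩, hL3⟩ := hL
  refine ⟨⟨Finset.filter_subset _ _, ?_⟩, ?_⟩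
  · have h1 := sum_Tc k hL1 (fun _ => 1)
    simp only [Finset.sum_const, smul_eq_mul, mul_one, Finset.card_range] at h1
    omega
  · have h1 := sum_Tc k hL1 (fun x => x)
    have h2 : ∑ x ∈ L, (2 * k - 1 - x) + ∑ x ∈ L, x = k * (2 * k - 1) := by
      rw [← Finset.sum_add_distrib, Finset.sum_congr rfl (g := fun _ => 2 * k - 1),
        Finset.sum_const, hL2, smul_eq_mul]
      intro x hx
      have h3 := Finset.mem_range.1 (hL1 hx)
      omega
    have h3 : (∑ x ∈ range (2 * k), x) = k * (2 * k - 1) := by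
      have h4 := Finset.sum_range_id_mul_two (2 * k)
      have h5 : 2 * k * (2 * k - 1) = k * (2 * k - 1) * 2 := by ring
      omega
    omega

/-- the pairs: the boxes of the partition -/
def Bx (k : ℕ) (L : Finset ℕ) : Finset (ℕ × ℕ) :=
  ((range (2 * k)) ×ˢ (range (2 * k))).filter fun P => P.1 ∈ L ∧ P.2 ∉ L ∧ P.2 < P.1

theorem mem_Bx {k : ℕ} {L : Finset ℕ} {P : ℕ × ℕ} :
    P ∈ Bx k L ↔ (P.1 < 2 * k ∧ P.2 < 2 * k) ∧ P.1 ∈ L ∧ P.2 ∉ L ∧ P.2 < P.1 := by
  unfold Bx
  rw [Finset.mem_filter, Finset.mem_product, Finset.mem_range, Finset.mem_range]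

/-- the hooks of the complement -/
theorem prod_Bx_Tc {M : Type*} [CommMonoid M] (k : ℕ) (L : Finset ℕ) (f : ℕ → M) :
    ∏ P ∈ Bx k (Tc k L), f (P.1 - P.2) = ∏ P ∈ Bx k L, f (P.1 - P.2) := by
  refine Finset.prod_nbij' (fun P => (2 * k - 1 - P.2, 2 * k - 1 - P.1))
    (fun P => (2 * k - 1 - P.2, 2 * k - 1 - P.1)) ?_ ?_ ?_ ?_ ?_
  · intro P hP
    rw [mem_Bx, mem_Tc, mem_Tc] at hP
    obtain ⟨⟨h1, h2⟩, h3, h4, h5⟩ := hP
    rw [mem_Bx]
    refine ⟨⟨by simp only; omega, by simp only; omega⟩, ?_, h3.2, by simp only; omega⟩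
    by_contra h6
    exact h4 ⟨h2, h6⟩
  · intro P hP
    rw [mem_Bx] at hP
    obtain ⟨⟨h1, h2⟩, h3, h4, h5⟩ := hP
    rw [mem_Bx, mem_Tc, mem_Tc]
    have e1 : 2 * k - 1 - (2 * k - 1 - P.1) = P.1 := by omega
    have e2 : 2 * k - 1 - (2 * k - 1 - P.2) = P.2 := by omega
    refine ⟨⟨by simp only; omega, by simp only; omega⟩, ⟨by simp only; omega, ?_⟩, ?_,
      by simp only; omega⟩
    · simp only [e2]
      exact h4
    · simp only [e1]
      exact fun h => h.2 h3
  · intro P hP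
    rw [mem_Bx] at hP
    refine Prod.ext ?_ ?_ <;> simp only <;> omega
  · intro P hP
    rw [mem_Bx] at hP
    refine Prod.ext ?_ ?_ <;> simp only <;> omega
  · intro P hP
    rw [mem_Bx] at hP
    simp only
    congr 1
    omega

end Vale.Agent.P275.H93
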