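import Vale.Agent.P275.H93.Pal

/-!
The hook polynomials at `q⁻¹`, continued: the exponents, and the sum over the partitions.
-/

namespace Vale.Agent.P275.H93

open Finset Vale.Agent.P275.H341

/-- the sum of the smaller elements of the pairs of elements of `L` -/
def aL (L : Finset ℕ) : ℕ := ∑ l ∈ L, ∑ m ∈ L.filter (· < l), m

theorem tri (L : Finset ℕ) (F : ℕ → ℕ → ℤ) : ∑ l ∈ L, ∑ m ∈ L, F l m =
    ∑ l ∈ L, ∑ m ∈ L.filter (· < l), F l m + ∑ l ∈ L, ∑ m ∈ L.filter (· < l), F m l +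
      ∑ l ∈ L, F l l := by
  have h1 : ∀ l ∈ L, ∑ m ∈ L, F l m = ∑ m ∈ L, (if m < l then F l m else 0) +
      ∑ m ∈ L, (if l < m then F l m else 0) + F l l := by
    intro l hl
    have h2 : F l l = ∑ m ∈ L, (if m = l then F l m else 0) := by
      rw [Finset.sum_ite_eq' L l (fun m => F l m), if_pos hl]
    rw [h2, ← Finset.sum_add_distrib, ← Finset.sum_add_distrib]
    refine Finset.sum_congr rfl fun m _ => ?_
    rcases lt_trichotomy m l with h | h | h
    · rw [if_pos h, if_neg (by omega), if_neg (by omega)]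
      ring
    · rw [if_neg (by omega), if_neg (by omega), if_pos h]
      ring
    · rw [if_neg (by omega), if_pos h, if_neg (by omega)]
      ring
  rw [Finset.sum_congr rfl h1, Finset.sum_add_distrib, Finset.sum_add_distrib]
  congr 2
  · refine Finset.sum_congr rfl fun l _ => ?_
    rw [Finset.sum_filter]
  · rw [Finset.sum_comm]
    refine Finset.sum_congr rfl fun l _ => ?_
    rw [Finset.sum_filter]

theorem filter_range (L : Finset ℕ) (l : ℕ) :
    (range l).filter (· ∈ L) = L.filter (· < l) := by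
  ext m
  rw [Finset.mem_filter, Finset.mem_filter, Finset.mem_range, and_comm]

theorem prod_Bx {M : Type*} [CommMonoid M] {k : ℕ} {L : Finset ℕ} (hL : L ⊆ range (2 * k))
    (F : ℕ → ℕ → M) :
    ∏ P ∈ Bx k L, F P.1 P.2 = ∏ l ∈ L, ∏ m ∈ (range l).filter (· ∉ L), F l m := by
  refine Finset.prod_finset_product (Bx k L) L (fun l => (range l).filter (· ∉ L)) ?_
  intro P
  rw [mem_Bx, Finset.mem_filter, Finset.mem_range]
  constructor
  · rintro ⟨_, h1, h2, h3⟩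
    exact ⟨h1, h3, h2⟩
  · rintro ⟨h1, h2, h3⟩
    have h4 := Finset.mem_range.1 (hL h1)
    exact ⟨⟨h4, by omega⟩, h1, h3, h2⟩

theorem sum_Bx {k : ℕ} {L : Finset ℕ} (hL : L ⊆ range (2 * k)) (F : ℕ → ℕ → ℤ) :
    ∑ l ∈ L, ∑ m ∈ range l, F l m =
      ∑ l ∈ L, ∑ m ∈ L.filter (· < l), F l m + ∑ P ∈ Bx k L, F P.1 P.2 := by
  have h1 : ∑ P ∈ Bx k L, F P.1 P.2 = ∑ l ∈ L, ∑ m ∈ (range l).filter (· ∉ L), F l m :=
    prod_Bx (M := Multiplicative ℤ) hL F
  rw [h1, ← Finset.sum_add_distrib]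
  refine Finset.sum_congr rfl fun l _ => ?_
  rw [← filter_range]
  exact (Finset.sum_filter_add_sum_filter_not _ _ _).symm

theorem LS_sub {k : ℕ} {L : Finset ℕ} (hL : L ∈ LS k) : L ⊆ range (2 * k) := by
  unfold LS at hL
  rw [Finset.mem_filter, Finset.mem_powersetCard] at hL
  exact hL.1.1

theorem LS_card {k : ℕ} {L : Finset ℕ} (hL : L ∈ LS k) : L.card = k := by
  unfold LS at hL
  rw [Finset.mem_filter, Finset.mem_powersetCard] at hL
  exact hL.1.2

theorem LS_sum {k : ℕ} {L : Finset ℕ} (hL : L ∈ LS k) :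
    2 * ∑ l ∈ L, (l : ℤ) = k * (k + 1) := by
  unfold LS at hL
  rw [Finset.mem_filter, Finset.mem_powersetCard] at hL
  have h1 := hL.2
  have h2 := Finset.sum_range_id_mul_two k
  have h3 : ((∑ i ∈ range k, i : ℕ) : ℤ) * 2 = k * (k - 1) := by
    have h4 : (((∑ i ∈ range k, i) * 2 : ℕ) : ℤ) = ((k * (k - 1) : ℕ) : ℤ) := by rw [h2]
    rcases Nat.eq_zero_or_pos k with h | h
    · subst h
      simp
    · push_cast [Nat.cast_sub h] at h4 ⊢
      linarith
  have h4 : ((∑ l ∈ L, l : ℕ) : ℤ) = k + ((∑ i ∈ range k, i : ℕ) : ℤ) := by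
    rw [h1]
    push_cast
    rfl
  have h5 : ∑ l ∈ L, (l : ℤ) = ((∑ l ∈ L, l : ℕ) : ℤ) := by push_cast; rfl
  rw [h5, h4]
  linarith

/-- the number of boxes -/
theorem card_Bx {k : ℕ} {L : Finset ℕ} (hL : L ∈ LS k) : (Bx k L).card = k := by
  have h1 := sum_Bx (LS_sub hL) (fun _ _ => 1)
  have h2 := tri L (fun _ _ => 1)
  have h3 := LS_sum hL
  have h4 := LS_card hL
  simp only [Finset.sum_const, Finset.card_range, nsmul_eq_mul, mul_one] at h1 h2
  rw [h4] at h2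
  have h5 : 2 * ((Bx k L).card : ℤ) = 2 * k := by linarith
  have h6 : ((Bx k L).card : ℤ) = k := by linarith
  exact_mod_cast h6

/-- the sum of the hooks -/
theorem hooks {k : ℕ} {L : Finset ℕ} (hL : L ∈ LS k) :
    ∑ l ∈ L, (l : ℤ) * (l + 1) = 2 * ∑ P ∈ Bx k L, ((P.1 : ℤ) - P.2) +
      2 * (∑ l ∈ L, ∑ m ∈ L.filter (· < l), ((l : ℤ) - m)) := by
  have h1 := sum_Bx (LS_sub hL) (fun l m => (l : ℤ) - m)
  have h2 : ∀ l ∈ L, 2 * ∑ m ∈ range l, ((l : ℤ) - m) = l * (l + 1) := by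
    intro l _
    have h3 : ∀ j : ℕ, 2 * ∑ m ∈ range j, (m : ℤ) = j * (j - 1) := by
      intro j
      induction j with
      | zero => simp
      | succ j ih =>
        rw [Finset.sum_range_succ, mul_add, ih]
        push_cast
        ring
    rw [Finset.sum_sub_distrib, mul_sub, h3, Finset.sum_const, Finset.card_range, nsmul_eq_mul]
    ring
  have h3 : 2 * ∑ l ∈ L, ∑ m ∈ range l, ((l : ℤ) - m) = ∑ l ∈ L, (l : ℤ) * (l + 1) := by
    rw [Finset.mul_sum]
    exact Finset.sum_congr rfl h2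
  rw [← h3, h1]
  ring

/-- twice the sum of the hooks -/
theorem hooks2 {k : ℕ} {L : Finset ℕ} (hL : L ∈ LS k) :
    ∑ l ∈ L, (l : ℤ) * (l + 1) =
      2 * ∑ P ∈ Bx k L, ((P.1 : ℤ) - P.2) + (k - 1) * (k * (k + 1)) - 4 * (aL L : ℤ) := by
  have h1 := hooks hL
  have h2 := tri L (fun l _ => (l : ℤ))
  have h3 := LS_sum hL
  have h4 := LS_card hL
  have h5 : ((aL L : ℕ) : ℤ) = ∑ l ∈ L, ∑ m ∈ L.filter (· < l), (m : ℤ) := by
    unfold aL
    push_cast
    rfl
  have h6 : ∑ l ∈ L, ∑ m ∈ L.filter (· < l), ((l : ℤ) - m) =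
      ∑ l ∈ L, ∑ m ∈ L.filter (· < l), (l : ℤ) - aL L := by
    rw [h5, ← Finset.sum_sub_distrib]
    exact Finset.sum_congr rfl fun l _ => Finset.sum_sub_distrib _ _
  have h7 : ∑ l ∈ L, ∑ _m ∈ L, (l : ℤ) = k * ∑ l ∈ L, (l : ℤ) := by
    rw [Finset.mul_sum]
    refine Finset.sum_congr rfl fun l _ => ?_
    rw [Finset.sum_const, h4, nsmul_eq_mul]
  rw [h7] at h2
  rw [← h5] at h2
  rw [h6] at h1
  have h8 : 2 * (k * ∑ l ∈ L, (l : ℤ)) = k * (k * (k + 1)) := by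
    rw [← h3]
    ring
  linarith

theorem sum_sq (j : ℕ) : 3 * ∑ x ∈ range j, (x : ℤ) * (x + 1) = (j - 1) * j * (j + 1) := by
  induction j with
  | zero => simp
  | succ j ih =>
    rw [Finset.sum_range_succ, mul_add, ih]
    push_cast
    ring

theorem choose_three (k : ℕ) : 6 * (k.choose 3 : ℤ) = k * (k - 1) * (k - 2) := by
  induction k with
  | zero => simp
  | succ k ih =>
    have h2 : 2 * (k.choose 2 : ℤ) = k * (k - 1) := by
      clear ih
      induction k with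
      | zero => simp
      | succ k ih =>
        rw [Nat.choose_succ_succ, Nat.choose_one_right]
        push_cast
        linarith
    rw [Nat.choose_succ_succ]
    push_cast
    linarith

/-- **The exponents.** -/
theorem expo {k : ℕ} {L : Finset ℕ} (hL : L ∈ LS k) :
    ∑ P ∈ Bx k L, (P.1 - P.2) + 2 * k.choose 3 = aL L + aL (Tc k L) + k := by
  have h1 := hooks2 hL
  have h2 := hooks2 (Tc_mem hL)
  have h3 : ∑ P ∈ Bx k (Tc k L), (P.1 - P.2) = ∑ P ∈ Bx k L, (P.1 - P.2) :=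
    prod_Bx_Tc (M := Multiplicative ℕ) k L (fun x => x)
  have h4 : ∀ L : Finset ℕ, ∑ P ∈ Bx k L, ((P.1 : ℤ) - P.2) =
      ((∑ P ∈ Bx k L, (P.1 - P.2) : ℕ) : ℤ) := by
    intro L
    push_cast
    refine Finset.sum_congr rfl fun P hP => ?_
    rw [mem_Bx] at hP
    rw [Nat.cast_sub hP.2.2.2.le]
  rw [h4] at h1 h2
  rw [h3] at h2
  have h5 := sum_Tc k (LS_sub hL) (fun x => (x : ℤ) * (x + 1))
  have h6 : ∑ x ∈ L, (((2 * k - 1 - x : ℕ) : ℤ) * (((2 * k - 1 - x : ℕ) : ℤ) + 1)) =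
      ∑ x ∈ L, (x : ℤ) * (x + 1) - 4 * k * ∑ x ∈ L, (x : ℤ) + k * (2 * k * (2 * k - 1)) := by
    have h7 : (k : ℤ) * (2 * k * (2 * k - 1)) = ∑ _x ∈ L, (2 * (k : ℤ) * (2 * k - 1)) := by
      rw [Finset.sum_const, LS_card hL, nsmul_eq_mul]
    rw [h7, Finset.mul_sum, ← Finset.sum_sub_distrib, ← Finset.sum_add_distrib]
    refine Finset.sum_congr rfl fun x hx => ?_
    have h8 := Finset.mem_range.1 (LS_sub hL hx)
    have h9 : ((2 * k - 1 - x : ℕ) : ℤ) = 2 * k - 1 - x := by omega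
    rw [h9]
    ring
  have h7 := sum_sq (2 * k)
  push_cast at h7
  rw [h6] at h5
  have h8 := LS_sum hL
  have h9 := choose_three k
  have h10 : 4 * (k : ℤ) * ∑ x ∈ L, (x : ℤ) = 2 * k * (k * (k + 1)) := by
    rw [← h8]
    ring
  have h11 : (((∑ P ∈ Bx k L, (P.1 - P.2) : ℕ) : ℤ) + 2 * (k.choose 3 : ℤ)) =
      (aL L : ℤ) + aL (Tc k L) + k := by
    linarith
  exact_mod_cast h11

end Vale.Agent.P275.H93
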