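import Vale.Agent.P275.H93.Pal2

/-!
The hook polynomials at `q⁻¹`, end: `hk_inv`.
-/

namespace Vale.Agent.P275.H93

open Finset Vale.Agent.P275.H341

/-- the hook polynomial of a set of beta numbers -/
noncomputable def hL (q : ℂ) (k : ℕ) (L : Finset ℕ) : ℂ :=
  q ^ (k.choose 3) * (∏ P ∈ Bx k L, (q ^ (P.1 - P.2) - 1)) / q ^ aL L

/-- beta numbers -/
def lf {k : ℕ} (lam : Fin k → ℕ) (i : Fin k) : ℕ := lam i + (k - 1 - i)

theorem lf_rev {k : ℕ} (lam : Fin k → ℕ) (i : Fin k) :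
    lf lam (Fin.rev i) = lam (Fin.rev i) + (i : ℕ) := by
  unfold lf
  have := i.2
  rw [Fin.val_rev]
  omega

theorem lf_lt {k : ℕ} {lam : Fin k → ℕ} (h : Antitone lam) {i j : Fin k} :
    lf lam j < lf lam i ↔ i < j := by
  have h1 := bt_mono h
  have h2 : ∀ i : Fin k, lf lam i = (fun i : Fin k => lam (Fin.rev i) + (i : ℕ)) (Fin.rev i) := by
    intro i
    have h3 := lf_rev lam (Fin.rev i)
    rw [Fin.rev_rev] at h3
    rw [h3]
    simp only [Fin.rev_rev]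
  rw [h2, h2, h1.lt_iff_lt, Fin.rev_lt_rev]

theorem bt_eq {k : ℕ} (lam : Fin k → ℕ) : bt lam = univ.image (lf lam) := by
  ext x
  unfold bt
  rw [Finset.mem_image, Finset.mem_image]
  constructor
  · rintro ⟨i, _, rfl⟩
    exact ⟨Fin.rev i, Finset.mem_univ _, lf_rev lam i⟩
  · rintro ⟨i, _, rfl⟩
    refine ⟨Fin.rev i, Finset.mem_univ _, ?_⟩
    rw [← lf_rev, Fin.rev_rev]

theorem lf_inj {k : ℕ} {lam : Fin k → ℕ} (h : Antitone lam) : Function.Injective (lf lam) := by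
  intro i j hij
  rcases lt_trichotomy i j with h1 | h1 | h1
  · have h2 := (lf_lt h).2 h1
    omega
  · exact h1
  · have h2 := (lf_lt h).2 h1
    omega

theorem prod_lf {k : ℕ} {lam : Fin k → ℕ} (h : Antitone lam) (F : ℕ → ℂ) :
    ∏ i, F (lf lam i) = ∏ l ∈ bt lam, F l := by
  rw [bt_eq, Finset.prod_image fun i _ j _ hij => lf_inj h hij]

theorem prod_lf2 {k : ℕ} {lam : Fin k → ℕ} (h : Antitone lam) (F : ℕ → ℕ → ℂ) :
    ∏ i, ∏ j ∈ Ioi i, F (lf lam i) (lf lam j) =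
      ∏ l ∈ bt lam, ∏ m ∈ (bt lam).filter (· < l), F l m := by
  rw [← prod_lf h (fun l => ∏ m ∈ (bt lam).filter (· < l), F l m)]
  refine Finset.prod_congr rfl fun i _ => ?_
  have h1 : (bt lam).filter (· < lf lam i) = (Ioi i).image (lf lam) := by
    ext x
    rw [Finset.mem_filter, bt_eq, Finset.mem_image, Finset.mem_image]
    constructor
    · rintro ⟨⟨j, _, rfl⟩, hj⟩
      exact ⟨j, Finset.mem_Ioi.2 ((lf_lt h).1 hj), rfl⟩
    · rintro ⟨j, hj, rfl⟩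
      exact ⟨⟨j, Finset.mem_univ _, rfl⟩, (lf_lt h).2 (Finset.mem_Ioi.1 hj)⟩
  rw [h1, Finset.prod_image fun i _ j _ hij => lf_inj h hij]

/-- **The hook polynomial in terms of the set of beta numbers.** -/
theorem hk_eq {q : ℂ} (hq : q ≠ 0) (hq1 : ∀ i, 0 < i → q ^ i ≠ 1) {k : ℕ} {lam : Fin k → ℕ}
    (h : lam ∈ Pt k) : hk q lam = hL q k (bt lam) := by
  have ha := (mem_Pt.1 h).2
  have hL' := bt_mem h
  have e1 : ∏ i : Fin k, ∏ t ∈ range (lam i + (k - 1 - i)), (q ^ (t + 1) - 1) =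
      ∏ l ∈ bt lam, ∏ t ∈ range l, (q ^ (t + 1) - 1) :=
    prod_lf ha (fun l => ∏ t ∈ range l, (q ^ (t + 1) - 1))
  have e2 : ∏ i : Fin k, ∏ j ∈ Ioi i, (q ^ (lam i + (k - 1 - i)) - q ^ (lam j + (k - 1 - j))) =
      ∏ l ∈ bt lam, ∏ m ∈ (bt lam).filter (· < l), (q ^ l - q ^ m) :=
    prod_lf2 ha (fun l m => q ^ l - q ^ m)
  have e3 : ∏ l ∈ bt lam, ∏ t ∈ range l, (q ^ (t + 1) - 1) =
      (∏ l ∈ bt lam, ∏ m ∈ (bt lam).filter (· < l), (q ^ (l - m) - 1)) *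
        ∏ P ∈ Bx k (bt lam), (q ^ (P.1 - P.2) - 1) := by
    rw [prod_Bx (LS_sub hL') (fun l m => q ^ (l - m) - 1), ← Finset.prod_mul_distrib]
    refine Finset.prod_congr rfl fun l _ => ?_
    rw [← filter_range, Finset.prod_filter_mul_prod_filter_not,
      ← Finset.prod_range_reflect (fun t => q ^ (t + 1) - 1) l]
    refine Finset.prod_congr rfl fun m hm => ?_
    have h1 := Finset.mem_range.1 hm
    have h2 : l - 1 - m + 1 = l - m := by omega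
    rw [h2]
  have e4 : ∏ l ∈ bt lam, ∏ m ∈ (bt lam).filter (· < l), (q ^ l - q ^ m) =
      q ^ aL (bt lam) * ∏ l ∈ bt lam, ∏ m ∈ (bt lam).filter (· < l), (q ^ (l - m) - 1) := by
    unfold aL
    rw [← Finset.prod_pow_eq_pow_sum, ← Finset.prod_mul_distrib]
    refine Finset.prod_congr rfl fun l _ => ?_
    rw [← Finset.prod_pow_eq_pow_sum, ← Finset.prod_mul_distrib]
    refine Finset.prod_congr rfl fun m hm => ?_
    have h1 := (Finset.mem_filter.1 hm).2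
    have h2 : q ^ l = q ^ m * q ^ (l - m) := by
      rw [← pow_add]
      congr 1
      omega
    rw [h2]
    ring
  have e5 : ∏ l ∈ bt lam, ∏ m ∈ (bt lam).filter (· < l), (q ^ (l - m) - 1) ≠ 0 := by
    refine Finset.prod_ne_zero_iff.2 fun l _ => Finset.prod_ne_zero_iff.2 fun m hm => ?_
    have h1 := (Finset.mem_filter.1 hm).2
    exact sub_ne_zero.2 (hq1 _ (by omega))
  unfold hk hL
  rw [e1, e2, e3, e4]
  have e6 : q ^ aL (bt lam) ≠ 0 := pow_ne_zero _ hq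
  field_simp

/-- at the inverse -/
theorem hL_inv {q : ℂ} (hq : q ≠ 0) {k : ℕ} {L : Finset ℕ} (h : L ∈ LS k) :
    hL q⁻¹ k L = (-q⁻¹) ^ k * hL q k (Tc k L) := by
  have h1 : ∏ P ∈ Bx k L, ((q⁻¹) ^ (P.1 - P.2) - 1) =
      (-1) ^ k * (∏ P ∈ Bx k L, (q ^ (P.1 - P.2) - 1)) / q ^ (∑ P ∈ Bx k L, (P.1 - P.2)) := by
    rw [eq_div_iff (pow_ne_zero _ hq), ← Finset.prod_pow_eq_pow_sum, ← Finset.prod_mul_distrib]
    have h2 : ((-1 : ℂ)) ^ k = ∏ _P ∈ Bx k L, (-1 : ℂ) := by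
      rw [Finset.prod_const, card_Bx h]
    rw [h2, ← Finset.prod_mul_distrib]
    refine Finset.prod_congr rfl fun P _ => ?_
    have h3 : (q⁻¹) ^ (P.1 - P.2) * q ^ (P.1 - P.2) = 1 := by
      rw [← mul_pow, inv_mul_cancel₀ hq, one_pow]
    rw [sub_mul, h3]
    ring
  have h2 : ∏ P ∈ Bx k (Tc k L), (q ^ (P.1 - P.2) - 1) = ∏ P ∈ Bx k L, (q ^ (P.1 - P.2) - 1) :=
    prod_Bx_Tc k L (fun x => q ^ x - 1)
  have h3 := expo h
  unfold hL
  rw [h1, h2]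
  generalize ∏ P ∈ Bx k L, (q ^ (P.1 - P.2) - 1) = X
  have h4 : q ^ (∑ P ∈ Bx k L, (P.1 - P.2)) * q ^ (k.choose 3) * q ^ (k.choose 3) =
      q ^ aL L * q ^ aL (Tc k L) * q ^ k := by
    rw [← pow_add, ← pow_add, ← pow_add, ← pow_add]
    congr 1
    omega
  have n1 := pow_ne_zero (k.choose 3) hq
  have n2 := pow_ne_zero (aL L) hq
  have n3 := pow_ne_zero (aL (Tc k L)) hq
  have n4 := pow_ne_zero k hq
  have n5 := pow_ne_zero (∑ P ∈ Bx k L, (P.1 - P.2)) hq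
  have h5 : (-q⁻¹) ^ k = (-1) ^ k / q ^ k := by
    rw [neg_pow, inv_pow]
    ring
  rw [h5, inv_pow, inv_pow, div_inv_eq_mul, div_mul_div_comm, ← div_eq_inv_mul, div_div,
    div_mul_eq_mul_div, div_eq_div_iff (mul_ne_zero n5 n1) (mul_ne_zero n4 n3)]
  linear_combination (-(X * (-1) ^ k)) * h4

/-- **The sum over the partitions at `q⁻¹`.** -/
theorem hk_inv {q : ℂ} (hq : q ≠ 0) (hq1 : ∀ i, 0 < i → q ^ i ≠ 1) (k : ℕ) (G : ℂ → ℂ) :
    ∑ lam ∈ Pt k, G (hk q⁻¹ lam) = ∑ lam ∈ Pt k, G ((-q⁻¹) ^ k * hk q lam) := by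
  have hq' : q⁻¹ ≠ 0 := inv_ne_zero hq
  have hq1' : ∀ i, 0 < i → q⁻¹ ^ i ≠ 1 := by
    intro i hi h
    rw [inv_pow, inv_eq_one] at h
    exact hq1 i hi h
  have h1 : ∑ lam ∈ Pt k, G (hk q⁻¹ lam) = ∑ L ∈ LS k, G (hL q⁻¹ k L) := by
    rw [← sum_bt]
    exact Finset.sum_congr rfl fun lam h => by rw [hk_eq hq' hq1' h]
  have h2 : ∑ lam ∈ Pt k, G ((-q⁻¹) ^ k * hk q lam) =
      ∑ L ∈ LS k, G ((-q⁻¹) ^ k * hL q k L) := by
    rw [← sum_bt k (fun L => G ((-q⁻¹) ^ k * hL q k L))]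
    exact Finset.sum_congr rfl fun lam h => by rw [hk_eq hq hq1 h]
  rw [h1, h2]
  refine Finset.sum_nbij' (Tc k) (Tc k) (fun L h => Tc_mem h) (fun L h => Tc_mem h)
    (fun L h => Tc_Tc (LS_sub h)) (fun L h => Tc_Tc (LS_sub h)) fun L h => ?_
  rw [hL_inv hq h]

end Vale.Agent.P275.H93
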