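import Vale.Agent.P275.H93.Pal3
import Vale.Agent.P275.H341.Rows4
import Vale.Agent.P275.H341.Ps

/-!
Palindromicity of the point count of every isotypic part (curious Poincare duality).
-/

namespace Vale.Agent.P275.H93

open Finset Vale.Agent.P275.H341

theorem pow_root {q : ℂ} (hq1 : ∀ i, 0 < i → q ^ i ≠ 1) {d : ℕ} (hd : 0 < d) :
    ∀ i, 0 < i → (q ^ d) ^ i ≠ 1 := by
  intro i hi
  rw [← pow_mul]
  exact hq1 _ (Nat.mul_pos hd hi)

theorem om_inv {q : ℂ} (hq : q ≠ 0) (hq1 : ∀ i, 0 < i → q ^ i ≠ 1) {d : ℕ} (hd : 0 < d)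
    (h e k : ℕ) : om (powMonoidHom (2 * h)) q⁻¹ d e k =
      (q⁻¹ ^ (d * (2 * h) * e)) ^ k * om (powMonoidHom (2 * h)) q d e k := by
  unfold om
  rw [inv_pow]
  have h1 := hk_inv (pow_ne_zero d hq) (pow_root hq1 hd) k
    (fun z => (powMonoidHom (2 * h) : ℂ →* ℂ) z ^ e)
  rw [h1, Finset.mul_sum]
  refine Finset.sum_congr rfl fun lam _ => ?_
  simp only [powMonoidHom_apply]
  rw [mul_pow, mul_pow]
  congr 1
  rw [neg_pow, mul_pow, mul_pow, ← pow_mul, ← pow_mul]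
  have h2 : Even (k * (2 * h * e)) := ⟨k * h * e, by ring⟩
  rw [h2.neg_one_pow, one_mul, ← inv_pow, ← pow_mul, ← pow_mul, ← pow_mul, ← pow_mul]
  congr 1
  ring

theorem Pt_zero : Pt 0 = {fun i => i.elim0} := by
  ext f
  rw [Finset.mem_singleton, mem_Pt]
  constructor
  · intro _
    funext i
    exact i.elim0
  · rintro rfl
    exact ⟨by simp, fun i => i.elim0⟩

theorem om_zero (Ψ : ℂ →* ℂ) (q : ℂ) (d e : ℕ) : om Ψ q d e 0 = 1 := by
  unfold om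
  rw [Pt_zero, Finset.sum_singleton]
  have h1 : hk (q ^ d) (fun i : Fin 0 => i.elim0) = 1 := by
    unfold hk
    simp
  rw [h1, map_one, one_pow]

/-- **Palindromicity of the point count of every isotypic part.** -/
theorem eG_inv {n m g : ℕ} (hn : 1 ≤ n) (hm : m ∣ n) {q : ℂ} (hq : q ≠ 0)
    (hq1 : ∀ i, 0 < i → q ^ i ≠ 1) :
    eG n m g q⁻¹ * q ^ (2 * n ^ 2 * (g - 1)) = eG n m g q := by
  have hm0 : 0 < m := Nat.pos_of_dvd_of_pos hm hn
  have h1 : ∀ d ∈ n.divisors, ld (om (powMonoidHom (2 * g - 2)) q⁻¹ d (m / Nat.gcd m d))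
      (n / Nat.lcm m d) = q⁻¹ ^ (n * (2 * (g - 1))) *
        ld (om (powMonoidHom (2 * g - 2)) q d (m / Nat.gcd m d)) (n / Nat.lcm m d) := by
    intro d hd
    have hdn := (Nat.mem_divisors.1 hd).1
    have hd0 : 0 < d := Nat.pos_of_dvd_of_pos hdn hn
    have h2 : 2 * g - 2 = 2 * (g - 1) := by omega
    rw [h2]
    have h3 : om (powMonoidHom (2 * (g - 1))) q⁻¹ d (m / Nat.gcd m d) =
        fun k => (q⁻¹ ^ (d * (2 * (g - 1)) * (m / Nat.gcd m d))) ^ k *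
          om (powMonoidHom (2 * (g - 1))) q d (m / Nat.gcd m d) k := by
      funext k
      exact om_inv hq hq1 hd0 _ _ _
    rw [h3, ld_scale (om_zero _ _ _ _)]
    simp only
    congr 1
    rw [← pow_mul]
    congr 1
    have h4 : d * (m / Nat.gcd m d) = Nat.lcm m d := by
      unfold Nat.lcm
      rw [mul_comm, Nat.div_mul_right_comm (Nat.gcd_dvd_left m d)]
    have h5 : Nat.lcm m d * (n / Nat.lcm m d) = n := Nat.mul_div_cancel' (Nat.lcm_dvd hm hdn)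
    calc d * (2 * (g - 1)) * (m / Nat.gcd m d) * (n / Nat.lcm m d)
        = d * (m / Nat.gcd m d) * (n / Nat.lcm m d) * (2 * (g - 1)) := by ring
      _ = n * (2 * (g - 1)) := by rw [h4, h5]
  unfold eG
  rw [Finset.sum_congr rfl fun d hd => by rw [h1 d hd]]
  have h2 : ∑ d ∈ n.divisors, ((ArithmeticFunction.moebius d : ℤ) : ℂ) *
      (q⁻¹ ^ (n * (2 * (g - 1))) *
        ld (om (powMonoidHom (2 * g - 2)) q d (m / Nat.gcd m d)) (n / Nat.lcm m d)) =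
      q⁻¹ ^ (n * (2 * (g - 1))) * ∑ d ∈ n.divisors, ((ArithmeticFunction.moebius d : ℤ) : ℂ) *
        ld (om (powMonoidHom (2 * g - 2)) q d (m / Nat.gcd m d)) (n / Nat.lcm m d) := by
    rw [Finset.mul_sum]
    exact Finset.sum_congr rfl fun d _ => by ring
  rw [h2]
  generalize ∑ d ∈ n.divisors, ((ArithmeticFunction.moebius d : ℤ) : ℂ) *
    ld (om (powMonoidHom (2 * g - 2)) q d (m / Nat.gcd m d)) (n / Nat.lcm m d) = X
  have h3 : 2 * n ^ 2 * (g - 1) = n * (n - 1) * (g - 1) + n * (n - 1) * (g - 1) +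
      n * (2 * (g - 1)) := by
    obtain ⟨n', rfl⟩ := Nat.exists_eq_add_of_le hn
    have h4 : 1 + n' - 1 = n' := by omega
    rw [h4]
    ring
  have h4 : ∀ a : ℕ, q⁻¹ ^ a * q ^ a = 1 := fun a => by
    rw [← mul_pow, inv_mul_cancel₀ hq, one_pow]
  rw [h3, pow_add, pow_add]
  calc q⁻¹ ^ (n * (n - 1) * (g - 1)) * (1 / (n : ℂ) * (q⁻¹ ^ (n * (2 * (g - 1))) * X)) *
        (q ^ (n * (n - 1) * (g - 1)) * q ^ (n * (n - 1) * (g - 1)) * q ^ (n * (2 * (g - 1))))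
      = (q⁻¹ ^ (n * (n - 1) * (g - 1)) * q ^ (n * (n - 1) * (g - 1))) *
        (q⁻¹ ^ (n * (2 * (g - 1))) * q ^ (n * (2 * (g - 1)))) *
        (q ^ (n * (n - 1) * (g - 1)) * (1 / (n : ℂ) * X)) := by ring
    _ = q ^ (n * (n - 1) * (g - 1)) * (1 / (n : ℂ) * X) := by rw [h4, h4, one_mul, one_mul]

/-- the E-polynomial of the isotypic part is palindromic -/
theorem E_palindromic {n m g : ℕ} (hn : 1 ≤ n) (hm : m ∣ n) {q : ℂ} (hq : q ≠ 0)
    (hq1 : ∀ i, 0 < i → q ^ i ≠ 1) :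
    q ^ (2 * ((n ^ 2 - 1) * (g - 1))) * (eG n m g q⁻¹ / (q⁻¹ - 1) ^ (2 * g - 2)) =
      eG n m g q / (q - 1) ^ (2 * g - 2) := by
  have h1 := eG_inv (g := g) hn hm hq hq1
  have h2 : q - 1 ≠ 0 := by
    have h3 := hq1 1 one_pos
    rw [pow_one] at h3
    exact sub_ne_zero.2 h3
  have h3 : (q⁻¹ - 1) ^ (2 * g - 2) = (q - 1) ^ (2 * g - 2) / q ^ (2 * g - 2) := by
    have h4 : q⁻¹ - 1 = -(q - 1) / q := by
      field_simp
      ring
    have h5 : Even (2 * g - 2) := ⟨g - 1, by omega⟩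
    rw [h4, div_pow, h5.neg_pow]
  rw [← h1, h3]
  have h4 : 2 * n ^ 2 * (g - 1) = 2 * ((n ^ 2 - 1) * (g - 1)) + (2 * g - 2) := by
    have h5 : 1 ≤ n ^ 2 := Nat.one_le_pow _ _ hn
    obtain ⟨a, ha⟩ := Nat.exists_eq_add_of_le h5
    have h6 : n ^ 2 - 1 = a := by omega
    have h7 : 2 * g - 2 = 2 * (g - 1) := by omega
    rw [h6, ha, h7]
    ring
  have h5 : (q - 1) ^ (2 * g - 2) ≠ 0 := pow_ne_zero _ h2
  have h6 : q ^ (2 * g - 2) ≠ 0 := pow_ne_zero _ hq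
  rw [h4, pow_add]
  field_simp

end Vale.Agent.P275.H93
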