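import Vale.Agent.P275.H341.Psh

/-!
The commutative ring with basis `I` of a positive self-adjoint Hopf algebra given by structure
constants, its form and the adjoints of the multiplications.
-/

namespace Vale.Agent.P275.H93

open Finset Vale.Agent.P275.H341

variable {I : Type} (H : PSH I)

/-- formal integer combinations of the basis elements -/
def Rg {I : Type} (_ : PSH I) : Type := I →₀ ℤ

noncomputable instance : AddCommGroup (Rg H) := inferInstanceAs (AddCommGroup (I →₀ ℤ))

/-- the basis elements -/
noncomputable def bs (a : I) : Rg H := Finsupp.single a (1 : ℤ)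

/-- the additive map with given values on the basis -/
noncomputable def lin {N : Type*} [AddCommGroup N] (g : I → N) : Rg H →+ N :=
  Finsupp.liftAddHom fun a => zmultiplesHom N (g a)

/-- the coefficients -/
noncomputable def co (x : I) : Rg H →+ ℤ := Finsupp.applyAddHom x

theorem lin_bs {N : Type*} [AddCommGroup N] (g : I → N) (a : I) : lin H g (bs H a) = g a := by
  have h1 := Finsupp.liftAddHom_apply_single (fun a => zmultiplesHom N (g a)) a (1 : ℤ)
  rw [zmultiplesHom_apply, one_zsmul] at h1
  exact h1

theorem hom_ext {N : Type*} [AddCommGroup N] {φ ψ : Rg H →+ N}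
    (h : ∀ a, φ (bs H a) = ψ (bs H a)) : φ = ψ := by
  refine Finsupp.addHom_ext fun a m => ?_
  have h1 : (Finsupp.single a m : I →₀ ℤ) = m • (Finsupp.single a (1 : ℤ) : I →₀ ℤ) := by
    rw [Finsupp.smul_single, smul_eq_mul, mul_one]
  have h2 : φ (m • bs H a) = ψ (m • bs H a) := by rw [map_zsmul, map_zsmul, h]
  rw [h1]
  exact h2

theorem Rg_ext {f g : Rg H} (h : ∀ x, co H x f = co H x g) : f = g := Finsupp.ext h

open scoped Classical in
theorem co_bs (x a : I) : co H x (bs H a) = if a = x then 1 else 0 := by
  unfold co bs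
  exact Finsupp.single_apply

theorem co_bs_self (a : I) : co H a (bs H a) = 1 := by
  classical
  rw [co_bs, if_pos rfl]

theorem co_bs_ne {x a : I} (h : a ≠ x) : co H x (bs H a) = 0 := by
  classical
  rw [co_bs, if_neg h]

theorem Rg_ind {P : Rg H → Prop} (h0 : P 0) (hadd : ∀ f g, P f → P g → P (f + g))
    (hneg : ∀ f, P f → P (-f)) (hbs : ∀ a, P (bs H a)) (f : Rg H) : P f := by
  refine Finsupp.induction_linear (motive := P) f h0 hadd fun a m => ?_
  have h1 : (Finsupp.single a m : I →₀ ℤ) = m • (Finsupp.single a (1 : ℤ) : I →₀ ℤ) := by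
    rw [Finsupp.smul_single, smul_eq_mul, mul_one]
  rw [h1]
  change P (m • bs H a)
  have h2 : ∀ j : ℕ, P (j • bs H a) := by
    intro j
    induction j with
    | zero => rw [zero_smul]; exact h0
    | succ j ih => rw [succ_nsmul]; exact hadd _ _ ih (hbs a)
  rcases Int.eq_nat_or_neg m with ⟨j, rfl | rfl⟩
  · rw [natCast_zsmul]
    exact h2 j
  · rw [neg_smul, natCast_zsmul]
    exact hneg _ (h2 j)

theorem deg_one' : H.deg H.one = 0 :=
  (H.mem_lvl 0 _).1 (by rw [H.lvl_zero]; exact Finset.mem_singleton_self _)

theorem eq_one' {a : I} (h : H.deg a = 0) : a = H.one := by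
  have h1 := (H.mem_lvl 0 a).2 h
  rw [H.lvl_zero] at h1
  exact Finset.mem_singleton.1 h1

/-- a combination of basis elements of a level -/
theorem co_sum (x : I) (n : ℕ) (u : I → ℕ) (hu : u x ≠ 0 → H.deg x = n) :
    co H x (∑ y ∈ H.lvl n, u y • bs H y) = u x := by
  classical
  rw [map_sum]
  simp_rw [map_nsmul, co_bs]
  by_cases h : H.deg x = n
  · rw [Finset.sum_eq_single x]
    · simp
    · intro y _ hy
      rw [if_neg hy, smul_zero]
    · intro h1
      exact absurd ((H.mem_lvl n x).2 h) h1
  · have h1 : u x = 0 := by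
      by_contra h2
      exact h (hu h2)
    rw [h1, Nat.cast_zero]
    refine Finset.sum_eq_zero fun y hy => ?_
    rw [if_neg, smul_zero]
    rintro rfl
    exact h ((H.mem_lvl n y).1 hy)

/-- the product of two basis elements -/
noncomputable def bm (a b : I) : Rg H := ∑ x ∈ H.lvl (H.deg a + H.deg b), H.c a b x • bs H x

theorem co_bm (a b x : I) : co H x (bm H a b) = H.c a b x :=
  co_sum H x _ (fun x => H.c a b x) (H.c_deg a b x)

/-- the multiplication -/
noncomputable def mulHom : Rg H →+ Rg H →+ Rg H := lin H fun a => lin H fun b => bm H a b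

theorem mulHom_bs (a b : I) : mulHom H (bs H a) (bs H b) = bm H a b := by
  unfold mulHom
  rw [lin_bs, lin_bs]

theorem mulHom_comm (f g : Rg H) : mulHom H f g = mulHom H g f := by
  have h1 : mulHom H = (mulHom H).flip := by
    refine hom_ext H fun a => hom_ext H fun b => ?_
    rw [AddMonoidHom.flip_apply, mulHom_bs, mulHom_bs]
    unfold bm
    rw [add_comm (H.deg b)]
    simp_rw [H.c_comm b a]
  conv_lhs => rw [h1]
  rfl

theorem co_bm_mul (a b d x : I) : co H x (mulHom H (bm H a b) (bs H d)) =
    ∑ y ∈ H.lvl (H.deg a + H.deg b), (H.c a b y : ℤ) * H.c y d x := by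
  unfold bm
  rw [map_sum, AddMonoidHom.finsetSum_apply, map_sum]
  refine Finset.sum_congr rfl fun y _ => ?_
  rw [map_nsmul, AddMonoidHom.nsmul_apply, map_nsmul, mulHom_bs, co_bm, nsmul_eq_mul]

theorem mulHom_assoc_bs (a b d : I) :
    mulHom H (mulHom H (bs H a) (bs H b)) (bs H d) =
      mulHom H (bs H a) (mulHom H (bs H b) (bs H d)) := by
  refine Rg_ext H fun x => ?_
  rw [mulHom_comm H (bs H a) (mulHom H (bs H b) (bs H d)), mulHom_bs, mulHom_bs, co_bm_mul,
    co_bm_mul]
  have h1 := H.c_assoc a b d x
  simp_rw [H.c_comm _ a x]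
  exact_mod_cast h1

theorem mulHom_assoc (f g k : Rg H) : mulHom H (mulHom H f g) k = mulHom H f (mulHom H g k) := by
  induction f using Rg_ind H with
  | h0 => simp
  | hadd f f' hf hf' =>
    rw [map_add, AddMonoidHom.add_apply, AddMonoidHom.add_apply, map_add, AddMonoidHom.add_apply,
      hf, hf']
  | hneg f hf =>
    rw [map_neg, AddMonoidHom.neg_apply, AddMonoidHom.neg_apply, map_neg, AddMonoidHom.neg_apply,
      hf]
  | hbs a =>
    induction g using Rg_ind H with
    | h0 => simp
    | hadd f f' hf hf' =>
      rw [map_add, map_add, AddMonoidHom.add_apply, map_add, AddMonoidHom.add_apply, map_add, hf,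
        hf']
    | hneg f hf =>
      rw [map_neg, map_neg, AddMonoidHom.neg_apply, map_neg, AddMonoidHom.neg_apply, map_neg, hf]
    | hbs b =>
      induction k using Rg_ind H with
      | h0 => simp
      | hadd f f' hf hf' => rw [map_add, map_add, map_add, hf, hf']
      | hneg f hf => rw [map_neg, map_neg, map_neg, hf]
      | hbs d => exact mulHom_assoc_bs H a b d

theorem mulHom_one (f : Rg H) : mulHom H (bs H H.one) f = f := by
  have h1 : mulHom H (bs H H.one) = AddMonoidHom.id (Rg H) := by
    refine hom_ext H fun a => ?_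
    rw [mulHom_bs, AddMonoidHom.id_apply]
    refine Rg_ext H fun x => ?_
    rw [co_bm]
    by_cases h : x = a
    · rw [h, H.c_one_self, co_bs_self]
      rfl
    · rw [H.c_one_ne a x h, co_bs_ne H (Ne.symm h)]
      rfl
  rw [h1, AddMonoidHom.id_apply]

noncomputable instance : Mul (Rg H) := ⟨fun f g => mulHom H f g⟩

noncomputable instance : One (Rg H) := ⟨bs H H.one⟩

theorem mul_def (f g : Rg H) : f * g = mulHom H f g := rfl

theorem one_def : (1 : Rg H) = bs H H.one := rfl

noncomputable instance : CommRing (Rg H) :=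
  { (inferInstance : AddCommGroup (Rg H)) with
    mul := (· * ·)
    one := 1
    left_distrib := fun a b c => by rw [mul_def, mul_def, mul_def, map_add]
    right_distrib := fun a b c => by
      rw [mul_def, mul_def, mul_def, map_add, AddMonoidHom.add_apply]
    zero_mul := fun a => by rw [mul_def, map_zero, AddMonoidHom.zero_apply]
    mul_zero := fun a => by rw [mul_def, map_zero]
    mul_assoc := fun a b c => mulHom_assoc H a b c
    one_mul := fun a => mulHom_one H a
    mul_one := fun a => by rw [mul_def, mulHom_comm]; exact mulHom_one H a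
    mul_comm := fun a b => mulHom_comm H a b }

theorem bs_mul (a b : I) : bs H a * bs H b = bm H a b := mulHom_bs H a b

theorem co_mul (a b x : I) : co H x (bs H a * bs H b) = H.c a b x := by
  rw [bs_mul, co_bm]

end Vale.Agent.P275.H93
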