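import Mathlib

/-!
The left side of the row TOPG: the lowest weights from the asymptotics of the point count.
-/

namespace Vale.Agent.P275.H93

open Filter Topology Finset

/-- the polynomial of the weights -/
noncomputable def PM (h : ℕ → ℕ → ℕ) (K M : ℕ) (x : ℂ) : ℂ :=
  ∑ k ∈ range (K + 1), ∑ w ∈ range (2 * k + 1), (-1) ^ k * (h k w : ℂ) * x ^ (w - M)

theorem PM_continuous (h : ℕ → ℕ → ℕ) (K M : ℕ) : Continuous (PM h K M) := by
  unfold PM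
  fun_prop

theorem sum_eq_PM {h : ℕ → ℕ → ℕ} {K M : ℕ} {s x : ℂ} (hsx : s * x = 1)
    (hM : M ≤ 2 * K) (hw : ∀ k w, h k w ≠ 0 → M ≤ w) :
    ∑ k ∈ range (K + 1), ∑ w ∈ range (2 * k + 1), (-1) ^ k * (h k w : ℂ) * s ^ (2 * K - w) =
      s ^ (2 * K - M) * PM h K M x := by
  unfold PM
  rw [Finset.mul_sum]
  refine Finset.sum_congr rfl fun k hk => ?_
  rw [Finset.mul_sum]
  refine Finset.sum_congr rfl fun w hw' => ?_
  rw [Finset.mem_range] at hk hw'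
  by_cases h0 : h k w = 0
  · rw [h0]
    simp
  · have h1 := hw k w h0
    have h2 : 2 * K - M = (2 * K - w) + (w - M) := by omega
    rw [h2, pow_add]
    have h3 : s ^ (w - M) * x ^ (w - M) = 1 := by rw [← mul_pow, hsx, one_pow]
    calc (-1) ^ k * (h k w : ℂ) * s ^ (2 * K - w)
        = (-1) ^ k * (h k w : ℂ) * s ^ (2 * K - w) * (s ^ (w - M) * x ^ (w - M)) := by
          rw [h3, mul_one]
      _ = s ^ (2 * K - w) * s ^ (w - M) * ((-1) ^ k * (h k w : ℂ) * x ^ (w - M)) := by ring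

theorem PM_zero {h : ℕ → ℕ → ℕ} {K M : ℕ} (H0 : ∀ k w, h k w ≠ 0 → k ≤ w ∧ w ≤ 2 * k)
    (hw : ∀ k w, h k w ≠ 0 → M ≤ w) :
    PM h K M 0 = ∑ k ∈ range (K + 1), (-1) ^ k * (h k M : ℂ) := by
  unfold PM
  refine Finset.sum_congr rfl fun k _ => ?_
  rw [Finset.sum_eq_single M]
  · rw [Nat.sub_self, pow_zero, mul_one]
  · intro w _ hne
    by_cases h0 : h k w = 0
    · rw [h0]
      simp
    · have h1 := hw k w h0
      rw [zero_pow (by omega), mul_zero]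
  · intro h1
    have h2 : h k M = 0 := by
      by_contra h2
      have h3 := (H0 k M h2).2
      exact h1 (Finset.mem_range.2 (by omega))
    rw [h2]
    simp

/-- the filter of the primes -/
def lp (n : ℕ) : Filter ℕ := atTop ⊓ 𝓟 {p | p.Prime ∧ p ≡ 1 [MOD 2 * n]}

theorem lp_neBot {n : ℕ} (hn : 1 ≤ n) : (lp n).NeBot := by
  unfold lp
  rw [← Filter.frequently_mem_iff_neBot]
  exact Nat.frequently_atTop_modEq_one (by omega)

theorem tendsto_inv_sqrt : Tendsto (fun q : ℕ => (((Real.sqrt q : ℝ) : ℂ))⁻¹) atTop (𝓝 0) := by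
  have h1 : Tendsto (fun q : ℕ => (Real.sqrt q)⁻¹) atTop (𝓝 0) :=
    (Real.tendsto_sqrt_atTop.comp tendsto_natCast_atTop_atTop).inv_tendsto_atTop
  have h2 := (Complex.continuous_ofReal.tendsto 0).comp h1
  rw [Complex.ofReal_zero] at h2
  refine h2.congr fun q => ?_
  simp

theorem tendsto_quot : Tendsto (fun q : ℕ => ((q : ℂ) - 1) / q) atTop (𝓝 1) := by
  have h1 : Tendsto (fun q : ℕ => ((q : ℂ))⁻¹) atTop (𝓝 0) := by
    have h2 := tendsto_inv_sqrt.mul tendsto_inv_sqrt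
    rw [mul_zero] at h2
    refine h2.congr fun q => ?_
    rw [← mul_inv, ← Complex.ofReal_mul, Real.mul_self_sqrt (Nat.cast_nonneg q)]
    simp
  have h2 := (tendsto_const_nhds (x := (1 : ℂ))).sub h1
  rw [sub_zero] at h2
  refine h2.congr' ?_
  filter_upwards [eventually_gt_atTop 0] with q hq
  have h3 : (q : ℂ) ≠ 0 := by exact_mod_cast hq.ne'
  field_simp

/-- the limit of the polynomial of the weights -/
theorem PM_lim {n g K D M : ℕ} (hn : 1 ≤ n) (hDK : D + 1 ≤ K) (hM : M ≤ 2 * D + 2)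
    {h : ℕ → ℕ → ℕ} (hw : ∀ k w, h k w ≠ 0 → M ≤ w) {e : ℕ → ℂ}
    (H3 : ∀ p : ℕ, p.Prime → p ≡ 1 [MOD 2 * n] →
      ((p : ℂ) - 1) ^ (2 * g - 2) *
        ∑ k ∈ range (K + 1), ∑ w ∈ range (2 * k + 1), (-1) ^ k * (h k w : ℂ) *
            ((Real.sqrt p : ℝ) : ℂ) ^ (2 * K - w) = e p)
    (hlim : Tendsto (fun q : ℕ => e q / (q : ℂ) ^ (K - D - 1 + (2 * g - 2))) atTop
      (𝓝 (-((2 * g - 2 : ℕ) : ℂ)))) :
    PM h K M 0 = -((2 * g - 2 : ℕ) : ℂ) * 0 ^ (2 * D + 2 - M) := by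
  have := lp_neBot hn
  have h1 : Tendsto (fun q : ℕ => (((q : ℂ) - 1) / q) ^ (2 * g - 2) *
      PM h K M (((Real.sqrt q : ℝ) : ℂ))⁻¹) (lp n) (𝓝 (1 ^ (2 * g - 2) * PM h K M 0)) := by
    refine Tendsto.mono_left ?_ inf_le_left
    exact (tendsto_quot.pow _).mul (((PM_continuous h K M).tendsto 0).comp tendsto_inv_sqrt)
  have h2 : Tendsto (fun q : ℕ => (((q : ℂ) - 1) / q) ^ (2 * g - 2) *
      PM h K M (((Real.sqrt q : ℝ) : ℂ))⁻¹) (lp n)
      (𝓝 (-((2 * g - 2 : ℕ) : ℂ) * 0 ^ (2 * D + 2 - M))) := by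
    have h3 : Tendsto (fun q : ℕ => e q / (q : ℂ) ^ (K - D - 1 + (2 * g - 2)) *
        ((((Real.sqrt q : ℝ) : ℂ))⁻¹) ^ (2 * D + 2 - M)) (lp n)
        (𝓝 (-((2 * g - 2 : ℕ) : ℂ) * 0 ^ (2 * D + 2 - M))) :=
      Tendsto.mono_left (hlim.mul (tendsto_inv_sqrt.pow _)) inf_le_left
    refine h3.congr' ?_
    have h4 : ∀ᶠ q in lp n, q.Prime ∧ q ≡ 1 [MOD 2 * n] :=
      Filter.mem_inf_of_right (Filter.mem_principal_self _)
    filter_upwards [h4] with p hp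
    have hp0 : (0 : ℝ) < p := by exact_mod_cast hp.1.pos
    have hs0 : ((Real.sqrt p : ℝ) : ℂ) ≠ 0 := by
      exact_mod_cast (Real.sqrt_pos.2 hp0).ne'
    have hs2 : ((Real.sqrt p : ℝ) : ℂ) ^ 2 = p := by
      rw [← Complex.ofReal_pow, Real.sq_sqrt hp0.le]
      simp
    rw [← H3 p hp.1 hp.2, sum_eq_PM (mul_inv_cancel₀ hs0) (by omega) hw]
    generalize hs : ((Real.sqrt p : ℝ) : ℂ) = s at *
    generalize PM h K M s⁻¹ = y
    rw [pow_add, ← hs2, ← pow_mul, div_pow]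
    have h5 : 2 * K - M = 2 * (K - D - 1) + (2 * D + 2 - M) := by omega
    rw [h5, pow_add, inv_pow]
    field_simp
  rw [← tendsto_nhds_unique h1 h2, one_pow, one_mul]

/-- **The lowest weights.** -/
theorem topL' {n g K D : ℕ} (hn : 1 ≤ n) (hDK : D + 1 ≤ K) {h : ℕ → ℕ → ℕ}
    (H0 : ∀ k w, h k w ≠ 0 → k ≤ w ∧ w ≤ 2 * k) (hDK2 : 2 * D + 2 ≤ K)
    (H1 : ∀ k w, k ≤ 2 * D → h k w = 0)
    (H2 : ∑ w ∈ range (2 * (2 * D + 1) + 1), h (2 * D + 1) w = 2 * g - 2) {e : ℕ → ℂ}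
    (H3 : ∀ p : ℕ, p.Prime → p ≡ 1 [MOD 2 * n] →
      ((p : ℂ) - 1) ^ (2 * g - 2) *
        ∑ k ∈ range (K + 1), ∑ w ∈ range (2 * k + 1), (-1) ^ k * (h k w : ℂ) *
            ((Real.sqrt p : ℝ) : ℂ) ^ (2 * K - w) = e p)
    (hlim : Tendsto (fun q : ℕ => e q / (q : ℂ) ^ (K - D - 1 + (2 * g - 2))) atTop
      (𝓝 (-((2 * g - 2 : ℕ) : ℂ)))) :
    (∀ w, h (2 * D + 1) w = if w = 2 * (D + 1) then 2 * g - 2 else 0) ∧
      h (2 * D + 2) (2 * D + 2) = 0 := by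
  have hw1 : ∀ k w, h k w ≠ 0 → 2 * D + 1 ≤ w := by
    intro k w h0
    have h1 := (H0 k w h0).1
    have h2 : ¬ k ≤ 2 * D := fun h2 => h0 (H1 k w h2)
    omega
  have h1 : h (2 * D + 1) (2 * D + 1) = 0 := by
    have h2 := PM_lim hn hDK (by omega) hw1 H3 hlim
    have h3 : 2 * D + 2 - (2 * D + 1) ≠ 0 := by omega
    rw [zero_pow h3, mul_zero, PM_zero H0 hw1, Finset.sum_eq_single (2 * D + 1)] at h2
    · have h4 : ((-1 : ℂ)) ^ (2 * D + 1) ≠ 0 := pow_ne_zero _ (by norm_num)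
      rcases mul_eq_zero.1 h2 with h5 | h5
      · exact absurd h5 h4
      · exact_mod_cast h5
    · intro k _ hne
      have h4 : h k (2 * D + 1) = 0 := by
        by_contra h4
        have h5 := (H0 _ _ h4).1
        have h6 : ¬ k ≤ 2 * D := fun h6 => h4 (H1 k _ h6)
        omega
      rw [h4]
      simp
    · intro h4
      exact absurd (Finset.mem_range.2 (by omega)) h4
  have hw2 : ∀ k w, h k w ≠ 0 → 2 * D + 2 ≤ w := by
    intro k w h0
    have h2 := hw1 k w h0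
    by_contra h3
    have h4 : w = 2 * D + 1 := by omega
    have h5 := (H0 k w h0).1
    have h6 : ¬ k ≤ 2 * D := fun h6 => h0 (H1 k w h6)
    have h7 : k = 2 * D + 1 := by omega
    rw [h7, h4] at h0
    exact h0 h1
  have h2 : (-1 : ℂ) * h (2 * D + 1) (2 * D + 2) + h (2 * D + 2) (2 * D + 2) =
      -((2 * g - 2 : ℕ) : ℂ) := by
    have h3 := PM_lim hn hDK (by omega) hw2 H3 hlim
    rw [Nat.sub_self, pow_zero, mul_one, PM_zero H0 hw2] at h3
    rw [← h3]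
    have h4 : ({2 * D + 1, 2 * D + 2} : Finset ℕ) ⊆ range (K + 1) := by
      intro k hk
      rw [Finset.mem_insert, Finset.mem_singleton] at hk
      rw [Finset.mem_range]
      omega
    rw [← Finset.sum_subset h4, Finset.sum_pair (by omega), Odd.neg_one_pow ⟨D, rfl⟩,
      Even.neg_one_pow ⟨D + 1, by ring⟩, one_mul]
    intro k _ hk
    rw [Finset.mem_insert, Finset.mem_singleton] at hk
    have h5 : h k (2 * D + 2) = 0 := by
      by_contra h5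
      have h6 := (H0 _ _ h5).1
      have h7 : ¬ k ≤ 2 * D := fun h6 => h5 (H1 k _ h6)
      omega
    rw [h5]
    simp
  have h3 : h (2 * D + 1) (2 * D + 2) = (2 * g - 2) + h (2 * D + 2) (2 * D + 2) := by
    have h4 : (h (2 * D + 1) (2 * D + 2) : ℂ) = ((2 * g - 2 : ℕ) : ℂ) +
        h (2 * D + 2) (2 * D + 2) := by linear_combination -h2
    exact_mod_cast h4
  have h4 : 2 * D + 2 ∈ range (2 * (2 * D + 1) + 1) := Finset.mem_range.2 (by omega)
  rw [← Finset.add_sum_erase _ _ h4] at H2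
  have h5 : h (2 * D + 2) (2 * D + 2) = 0 := by omega
  have h6 : ∑ w ∈ (range (2 * (2 * D + 1) + 1)).erase (2 * D + 2), h (2 * D + 1) w = 0 := by
    omega
  refine ⟨fun w => ?_, h5⟩
  by_cases hw : w = 2 * (D + 1)
  · rw [if_pos hw, hw]
    have h7 : 2 * (D + 1) = 2 * D + 2 := by ring
    rw [h7]
    omega
  · rw [if_neg hw]
    by_contra h7
    have h8 := (H0 _ _ h7).2
    have h9 := (Finset.sum_eq_zero_iff.1 h6) w (Finset.mem_erase.2
      ⟨by omega, Finset.mem_range.2 (by omega)⟩)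
    exact h7 h9

theorem bound_DK {n m g : ℕ} (hn : 1 ≤ n) (hd : m ∣ n) (hm : 2 ≤ m) (hg : 2 ≤ g) :
    n * (n - n / m) * (g - 1) + 1 ≤ (n ^ 2 - 1) * (g - 1) := by
  obtain ⟨r, rfl⟩ := hd
  have hm0 : 0 < m := by omega
  have hr : 1 ≤ r := by
    rcases Nat.eq_zero_or_pos r with h | h
    · rw [h, mul_zero] at hn
      omega
    · exact h
  rw [Nat.mul_div_cancel_left _ hm0]
  obtain ⟨g', rfl⟩ := Nat.exists_eq_add_of_le hg
  obtain ⟨m', rfl⟩ := Nat.exists_eq_add_of_le hm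
  obtain ⟨r', rfl⟩ := Nat.exists_eq_add_of_le hr
  have h1 : (2 + m') * (1 + r') - (1 + r') = (1 + m') * (1 + r') := by
    have h2 : (2 + m') * (1 + r') = (1 + m') * (1 + r') + (1 + r') := by ring
    omega
  have h3 : ((2 + m') * (1 + r')) ^ 2 - 1 = (2 + m') * (1 + r') * ((1 + m') * (1 + r')) +
      ((2 + m') * (1 + r') * (1 + r') - 1) := by
    have h4 : ((2 + m') * (1 + r')) ^ 2 = (2 + m') * (1 + r') * ((1 + m') * (1 + r')) +
      ((2 + m') * (1 + r') * (1 + r')) := by ring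
    have h5 : 1 ≤ (2 + m') * (1 + r') * (1 + r') := Nat.mul_pos (Nat.mul_pos (by omega)
      (by omega)) (by omega)
    omega
  have h6 : 2 + g' - 1 = g' + 1 := by omega
  rw [h1, h3, h6, add_mul _ _ (g' + 1)]
  have h7 : 1 ≤ (2 + m') * (1 + r') * (1 + r') - 1 := by
    have h8 : (2 + m') * (1 + r') * (1 + r') = 2 + (m' + (2 + m') * (2 * r' + r' * r')) := by ring
    omega
  have h9 : 1 ≤ ((2 + m') * (1 + r') * (1 + r') - 1) * (g' + 1) := Nat.mul_pos h7 (by omega)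
  omega

/-- **The left side of TOPG.** -/
theorem topL {n m g : ℕ} (hn : 1 ≤ n) (hd : m ∣ n) (hm : 2 ≤ m) (hg : 2 ≤ g)
    (h : ℕ → ℕ → ℕ) (H0 : ∀ k w, h k w ≠ 0 → k ≤ w ∧ w ≤ 2 * k)
    (H1 : ∀ k w, k ≤ 2 * (n * (n - n / m) * (g - 1)) → h k w = 0)
    (H2 : ∑ w ∈ Finset.range (2 * (2 * (n * (n - n / m) * (g - 1)) + 1) + 1),
      h (2 * (n * (n - n / m) * (g - 1)) + 1) w = 2 * g - 2) (e : ℕ → ℂ)
    (H3 : ∀ p : ℕ, p.Prime → p ≡ 1 [MOD 2 * n] →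
      ((p : ℂ) - 1) ^ (2 * g - 2) *
        ∑ k ∈ Finset.range (2 * ((n ^ 2 - 1) * (g - 1)) + 1),
          ∑ w ∈ Finset.range (2 * k + 1), (-1) ^ k * (h k w : ℂ) *
            ((Real.sqrt p : ℝ) : ℂ) ^ (4 * ((n ^ 2 - 1) * (g - 1)) - w) = e p)
    (hlim : Tendsto (fun q : ℕ => e q / (q : ℂ) ^ (2 * ((n ^ 2 - 1) * (g - 1)) -
      n * (n - n / m) * (g - 1) - 1 + (2 * g - 2))) atTop (𝓝 (-((2 * g - 2 : ℕ) : ℂ)))) :
    (∀ w, h (2 * (n * (n - n / m) * (g - 1)) + 1) w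
      = if w = 2 * (n * (n - n / m) * (g - 1) + 1) then 2 * g - 2 else 0) ∧
    h (2 * (n * (n - n / m) * (g - 1)) + 2) (2 * (n * (n - n / m) * (g - 1)) + 2) = 0 := by
  have h1 := bound_DK hn hd hm hg
  have h2 : 4 * ((n ^ 2 - 1) * (g - 1)) = 2 * (2 * ((n ^ 2 - 1) * (g - 1))) := by ring
  rw [h2] at H3
  exact topL' hn (by omega) H0 (by omega) H1 H2 H3 hlim

end Vale.Agent.P275.H93
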